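import Vale.Agent.P251.I.CofTriangle

/-!
# P257: a map with disjoint pieces is the sum of its pieces

`dsum f g hd : A ⟶ B` for `f g : A ⟶ B` with disjoint supports; `S (dsum f g) = S f + S g`, and
`map_eq_sum`: if `f : A ⟶ B` coincides at each point with exactly one of the `g m`, `m ∈ s`, while
the others are `∞`, then `S f = ∑ m ∈ s, S (g m)`.
-/

open CategoryTheory MonoidalCategory Limits Pretriangulated Topology OnePoint Set
open Vale.Agent.P251 Vale.Agent.P251.G Vale.Agent.P251.G.LC Vale.Agent.P251.I Vale.Agent.P251.T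

universe v u

noncomputable section

namespace Vale.Agent.P257.H104

section dsum

variable {A B : LC}

open scoped Classical in
/-- the union of two maps with disjoint supports -/
def dsum (f g : A ⟶ B) (hd : ∀ a, app f a = ∞ ∨ app g a = ∞) : A ⟶ B :=
  homMk (fun a => if app f a = ∞ then app g a else app f a) (by
    have h1 : IsClosed {a | app f a = ∞} := isClosed_eq (continuous_app f) continuous_const
    have h2 : IsClosed {a | app g a = ∞} := isClosed_eq (continuous_app g) continuous_const
    have h3 : {a | app f a = ∞} ∪ {a | app g a = ∞} = univ := by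
      ext a
      simpa using hd a
    rw [← continuousOn_univ, ← h3]
    refine ContinuousOn.union_of_isClosed ?_ ?_ h1 h2
    · refine (continuous_app g).continuousOn.congr ?_
      intro a ha
      exact if_pos ha
    · refine (continuous_app f).continuousOn.congr ?_
      intro a ha
      by_cases hf : app f a = ∞
      · simp only [hf, if_true]; exact ha
      · exact if_neg hf) (by rw [if_pos (app_infty f), app_infty g])

open scoped Classical in
theorem app_dsum (f g : A ⟶ B) (hd : ∀ a, app f a = ∞ ∨ app g a = ∞) (a : OnePoint A) :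
    app (dsum f g hd) a = if app f a = ∞ then app g a else app f a := by
  unfold dsum
  rw [app_homMk]

theorem app_dsum_of_left (f g : A ⟶ B) (hd : ∀ a, app f a = ∞ ∨ app g a = ∞) {a : OnePoint A}
    (h : app g a = ∞) : app (dsum f g hd) a = app f a := by
  rw [app_dsum]
  split_ifs with h1
  · rw [h, h1]
  · rfl

theorem app_dsum_of_right (f g : A ⟶ B) (hd : ∀ a, app f a = ∞ ∨ app g a = ∞) {a : OnePoint A}
    (h : app f a = ∞) : app (dsum f g hd) a = app g a := by
  rw [app_dsum, if_pos h]

theorem dsum_comp {C : LC} (f g : A ⟶ B) (hd : ∀ a, app f a = ∞ ∨ app g a = ∞) (h : B ⟶ C) :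
    dsum f g hd ≫ h = dsum (f ≫ h) (g ≫ h) (fun a => by
      rcases hd a with h1 | h1
      · left; rw [app_comp, h1, app_infty]
      · right; rw [app_comp, h1, app_infty]) := by
  apply app_ext
  intro a
  rw [app_comp]
  rcases hd a with h1 | h1
  · rw [app_dsum_of_right _ _ _ h1, app_dsum_of_right _ _ _ (by rw [app_comp, h1, app_infty]),
      app_comp]
  · rw [app_dsum_of_left _ _ _ h1, app_dsum_of_left _ _ _ (by rw [app_comp, h1, app_infty]),
      app_comp]

theorem dsum_zero_left (g : A ⟶ B) (hd) : dsum 0 g hd = g := by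
  apply app_ext
  intro a
  exact app_dsum_of_right _ _ _ rfl

theorem dsum_zero_right (f : A ⟶ B) (hd) : dsum f 0 hd = f := by
  apply app_ext
  intro a
  exact app_dsum_of_left _ _ _ rfl

theorem dsum_congr {f g f' g' : A ⟶ B} (hf : f = f') (hg : g = g')
    (hd : ∀ a, app f a = ∞ ∨ app g a = ∞) :
    dsum f g hd = dsum f' g' (by subst hf hg; exact hd) := by
  subst hf hg; rfl

end dsum

section T

variable {T : Type u} [Category.{v} T] [Preadditive T] [HasZeroObject T]
    [HasShift T ℤ] [∀ n : ℤ, (shiftFunctor T n).Additive] [Pretriangulated T]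
    [MonoidalCategory T] [SymmetricCategory T] [TensorTriangulated T] (F : SpaceFunctor T)

/-- **A union of two maps with disjoint supports goes to the sum.** -/
theorem map_dsum {A B : FCat} (f g : A ⟶ B) (hd : ∀ a, app f.hom a = ∞ ∨ app g.hom a = ∞) :
    F.S.map (FCat.hom (dsum f.hom g.hom hd) : A ⟶ B) = F.S.map f + F.S.map g := by
  -- the map to the disjoint union
  have hd' : ∀ a, app (f.hom ≫ sumInl B.obj B.obj) a = ∞ ∨
      app (g.hom ≫ sumInr B.obj B.obj) a = ∞ := fun a => by
    rcases hd a with h1 | h1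
    · left; rw [app_comp, h1, app_infty]
    · right; rw [app_comp, h1, app_infty]
  let φ : A ⟶ sumF B B := FCat.hom (dsum (f.hom ≫ sumInl B.obj B.obj)
    (g.hom ≫ sumInr B.obj B.obj) hd')
  have h1 : φ ≫ descF (𝟙 B) (FCat.hom 0) = f := by
    ext1
    change dsum _ _ hd' ≫ sumDesc _ _ = f.hom
    rw [dsum_comp]
    refine (dsum_congr (f' := f.hom) (g' := 0) ?_ ?_ _).trans (dsum_zero_right _ _)
    · rw [Category.assoc, sumInl_desc]; exact Category.comp_id _
    · rw [Category.assoc, sumInr_desc]; exact comp_zero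
  have h2 : φ ≫ descF (FCat.hom 0) (𝟙 B) = g := by
    ext1
    change dsum _ _ hd' ≫ sumDesc _ _ = g.hom
    rw [dsum_comp]
    refine (dsum_congr (f' := 0) (g' := g.hom) ?_ ?_ _).trans (dsum_zero_left _ _)
    · rw [Category.assoc, sumInl_desc]; exact comp_zero
    · rw [Category.assoc, sumInr_desc]; exact Category.comp_id _
  have h3 : φ ≫ descF (𝟙 B) (𝟙 B) = FCat.hom (dsum f.hom g.hom hd) := by
    ext1
    change dsum _ _ hd' ≫ sumDesc _ _ = dsum f.hom g.hom hd
    rw [dsum_comp]
    refine dsum_congr ?_ ?_ _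
    · rw [Category.assoc, sumInl_desc]; exact Category.comp_id _
    · rw [Category.assoc, sumInr_desc]; exact Category.comp_id _
  have h4 : F.S.map (descF (𝟙 B) (𝟙 B)) =
      F.S.map (descF (𝟙 B) (FCat.hom 0)) + F.S.map (descF (FCat.hom 0) (𝟙 B)) := by
    have h5 := congrArg (fun k => k ≫ F.S.map (descF (𝟙 B) (𝟙 B))) (F.sum_total B B)
    simp only [Preadditive.add_comp, Category.assoc, Category.id_comp] at h5
    rw [← Functor.map_comp F.S (inlF B B), ← Functor.map_comp F.S (inrF B B), inlF_descF,
      inrF_descF, CategoryTheory.Functor.map_id, Category.comp_id, Category.comp_id] at h5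
    exact h5.symm
  rw [← h3, Functor.map_comp, h4, Preadditive.comp_add, ← Functor.map_comp, ← Functor.map_comp,
    h1, h2]

/-- If `f` coincides at each point with one of the `g m`, the others being `∞`, then
`S f = ∑ S (g m)`. -/
theorem map_eq_sum {A B : FCat} {I : Type} [DecidableEq I] (s : Finset I) (g : I → (A ⟶ B))
    (hg : ∀ a, ∀ m ∈ s, ∀ m' ∈ s, app (g m).hom a ≠ ∞ → app (g m').hom a ≠ ∞ → m = m') :
    ∀ f : A ⟶ B, (∀ a, (∃ m ∈ s, app f.hom a = app (g m).hom a ∧ app (g m).hom a ≠ ∞) ∨
      (app f.hom a = ∞ ∧ ∀ m ∈ s, app (g m).hom a = ∞)) →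
      F.S.map f = ∑ m ∈ s, F.S.map (g m) := by
  have key : ∃ f : A ⟶ B, (∀ a, (∃ m ∈ s, app f.hom a = app (g m).hom a ∧
      app (g m).hom a ≠ ∞) ∨ (app f.hom a = ∞ ∧ ∀ m ∈ s, app (g m).hom a = ∞)) ∧
      F.S.map f = ∑ m ∈ s, F.S.map (g m) := by
    induction s using Finset.induction_on with
    | empty =>
      refine ⟨FCat.hom 0, fun a => Or.inr ⟨rfl, by simp⟩, ?_⟩
      rw [Finset.sum_empty]
      exact F.map_zero _ rfl
    | insert m s hm ih =>
      obtain ⟨f, hf, hfS⟩ := ih (fun a i hi j hj => hg a i (Finset.mem_insert_of_mem hi) j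
        (Finset.mem_insert_of_mem hj))
      have hd : ∀ a, app (g m).hom a = ∞ ∨ app f.hom a = ∞ := by
        intro a
        by_contra hcon
        push Not at hcon
        rcases hf a with ⟨i, hi, h1, h2⟩ | ⟨h1, -⟩
        · have := hg a m (Finset.mem_insert_self _ _) i (Finset.mem_insert_of_mem hi) hcon.1 h2
          rw [this] at hm
          exact hm hi
        · exact hcon.2 h1
      refine ⟨FCat.hom (dsum (g m).hom f.hom hd), ?_, ?_⟩
      · intro a
        change (∃ i ∈ insert m s, app (dsum (g m).hom f.hom hd) a = _ ∧ _) ∨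
          (app (dsum (g m).hom f.hom hd) a = ∞ ∧ _)
        by_cases h0 : app (g m).hom a = ∞
        · rw [app_dsum_of_right _ _ _ h0]
          rcases hf a with ⟨i, hi, h1, h2⟩ | ⟨h1, h2⟩
          · exact Or.inl ⟨i, Finset.mem_insert_of_mem hi, h1, h2⟩
          · refine Or.inr ⟨h1, fun i hi => ?_⟩
            rcases Finset.mem_insert.1 hi with rfl | hi
            · exact h0
            · exact h2 i hi
        · left
          refine ⟨m, Finset.mem_insert_self _ _, ?_, h0⟩
          exact app_dsum_of_left _ _ _ ((hd a).resolve_left h0)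
      · rw [map_dsum, hfS, Finset.sum_insert hm]
  intro f hf
  obtain ⟨f', hf', hS⟩ := key
  rw [← hS]
  congr 1
  ext1
  apply app_ext
  intro a
  rcases hf a with ⟨i, hi, h1, h2⟩ | ⟨h1, h2⟩
  · rcases hf' a with ⟨j, hj, h3, h4⟩ | ⟨h3, h4⟩
    · rw [h1, h3, hg a i hi j hj h2 h4]
    · exact absurd (h4 i hi) h2
  · rcases hf' a with ⟨j, hj, h3, h4⟩ | ⟨h3, h4⟩
    · exact absurd (h2 j hj) h4
    · rw [h1, h3]

end T

end Vale.Agent.P257.H104
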