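import Vale.Agent.P257.H104.Over

/-!
# P257: the diagonal `E((W ⊕ W') ⊗ ρ) ⟶ E(W ⊗ ρ) ⊗ E(W' ⊗ ρ)`
-/

open Set Filter Topology OnePoint CategoryTheory MonoidalCategory Matrix
open Vale.Agent.P251.G Vale.Agent.P251.G.Cell Vale.Agent.P251.G.LC

noncomputable section

set_option linter.unusedSectionVars false

namespace Vale.Agent.P257.H104

section frames

variable {B : Type} [TopologicalSpace B] [CompactSpace B] [T2Space B]
variable {κ J W W' : Type} [Fintype κ] [Fintype J] [Fintype W] [Fintype W'] [DecidableEq J]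
  [DecidableEq W] [DecidableEq W']
variable (F : Frames B κ J)

/-- the covering, with the fibre on the left -/
def covR (W : Type) [Fintype W] [DecidableEq W] : Fib J W ⊗ LC.of F.S ⟶ (F.ρW W).tot :=
  (β_ _ _).hom ≫ cov F W

theorem app_covR_coe (w : J → W → ℂ) (x : F.S) :
    app (covR F W) (OnePoint.some (w, x)) = OnePoint.some (F.q (x, w)) := rfl

theorem braid_covR : (β_ (LC.of F.S) (Fib J W)).hom ≫ covR F W = cov F W := by
  rw [covR, SymmetricCategory.symmetry_assoc]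

theorem fib_eq_covR (e : F.S) : fib F e W =
    (ρ_ (Fib J W)).inv ≫ (Fib J W ◁ point (X := LC.of F.S) e) ≫ covR F W := by
  apply hom_ext
  intro w
  rfl

theorem kron_one_mulVec (Q : Matrix κ κ ℂ) (v : W × κ → ℂ) (x : W × κ) :
    (kroneckerMap (· * ·) (1 : Matrix W W ℂ) Q *ᵥ v) x = (Q *ᵥ fun c => v (x.1, c)) x.2 := by
  simp only [Matrix.mulVec, dotProduct, kroneckerMap_apply]
  rw [Fintype.sum_prod_type]
  rw [Finset.sum_eq_single x.1]
  · simp
  · intro b _ hb
    simp [Matrix.one_apply_ne' hb]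
  · simp

/-- first part of a vector -/
def vl (v : (W ⊕ W') × κ → ℂ) : W × κ → ℂ := fun x => v (Sum.inl x.1, x.2)
/-- second part of a vector -/
def vr (v : (W ⊕ W') × κ → ℂ) : W' × κ → ℂ := fun x => v (Sum.inr x.1, x.2)
/-- combination of two vectors -/
def vc (v : W × κ → ℂ) (w : W' × κ → ℂ) : (W ⊕ W') × κ → ℂ := fun x =>
  x.1.elim (fun a => v (a, x.2)) (fun a => w (a, x.2))

theorem vc_vl_vr (v : (W ⊕ W') × κ → ℂ) : vc (vl v) (vr v) = v := by
  funext ⟨a, c⟩
  rcases a with a | a <;> rfl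

theorem fixed_vl {b : B} {v : (W ⊕ W') × κ → ℂ} (h : (F.ρW (W ⊕ W')).P b *ᵥ v = v) :
    (F.ρW W).P b *ᵥ vl v = vl v := by
  funext x
  rw [F.ρW_P, kron_one_mulVec]
  have := congrFun h (Sum.inl x.1, x.2)
  rw [F.ρW_P, kron_one_mulVec] at this
  exact this

theorem fixed_vr {b : B} {v : (W ⊕ W') × κ → ℂ} (h : (F.ρW (W ⊕ W')).P b *ᵥ v = v) :
    (F.ρW W').P b *ᵥ vr v = vr v := by
  funext x
  rw [F.ρW_P, kron_one_mulVec]
  have := congrFun h (Sum.inr x.1, x.2)
  rw [F.ρW_P, kron_one_mulVec] at this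
  exact this

/-- the diagonal -/
def dgFun (e : (F.ρW (W ⊕ W')).E) : (F.ρW W).E × (F.ρW W').E :=
  ((F.ρW W).mkE (Bun.base e) (vl (Bun.vec e)) (fixed_vl F (Bun.P_vec e)),
    (F.ρW W').mkE (Bun.base e) (vr (Bun.vec e)) (fixed_vr F (Bun.P_vec e)))

theorem continuous_vl : Continuous (vl : ((W ⊕ W') × κ → ℂ) → W × κ → ℂ) := by
  unfold vl; fun_prop

theorem continuous_vr : Continuous (vr : ((W ⊕ W') × κ → ℂ) → W' × κ → ℂ) := by
  unfold vr; fun_prop

theorem continuous_vc :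
    Continuous fun q : (W × κ → ℂ) × (W' × κ → ℂ) => vc q.1 q.2 := by
  refine continuous_pi fun ⟨a, c⟩ => ?_
  rcases a with a | a
  · exact (continuous_apply (a, c)).comp (continuous_fst (X := W × κ → ℂ) (Y := W' × κ → ℂ))
  · exact (continuous_apply (a, c)).comp (continuous_snd (X := W × κ → ℂ) (Y := W' × κ → ℂ))

theorem isClosedEmbedding_dgFun : IsClosedEmbedding (dgFun F (W := W) (W' := W')) := by
  have hc : Continuous (dgFun F (W := W) (W' := W')) := by
    refine Continuous.prodMk ?_ ?_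
    · exact Bun.continuous_mkE Bun.continuous_base (continuous_vl.comp Bun.continuous_vec) _
    · exact Bun.continuous_mkE Bun.continuous_base (continuous_vr.comp Bun.continuous_vec) _
  let l : (F.ρW W).E × (F.ρW W').E → (F.ρW (W ⊕ W')).E := fun q =>
    (F.ρW (W ⊕ W')).ofVec (Bun.base q.1) (vc (Bun.vec q.1) (Bun.vec q.2))
  have hl : Continuous l := by
    refine (Bun.continuous_ofVec _).comp (f := fun q : (F.ρW W).E × (F.ρW W').E =>
      (Bun.base q.1, vc (Bun.vec q.1) (Bun.vec q.2))) ?_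
    exact (Bun.continuous_base.comp continuous_fst).prodMk
      (continuous_vc.comp ((Bun.continuous_vec.comp continuous_fst).prodMk
        (Bun.continuous_vec.comp continuous_snd)))
  have hlr : Function.LeftInverse l (dgFun F) := by
    intro e
    refine Bun.E_ext rfl ?_
    change (F.ρW (W ⊕ W')).P (Bun.base e) *ᵥ vc (vl (Bun.vec e)) (vr (Bun.vec e)) = Bun.vec e
    rw [vc_vl_vr]
    exact Bun.P_vec e
  exact hlr.isClosedEmbedding hl hc

/-- the diagonal -/
def dg (W W' : Type) [Fintype W] [DecidableEq W] [Fintype W'] [DecidableEq W'] :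
    (F.ρW (W ⊕ W')).tot ⟶ (F.ρW W).tot ⊗ (F.ρW W').tot :=
  ofClosed (X := (F.ρW (W ⊕ W')).tot) (Y := LC.of ((F.ρW W).E × (F.ρW W').E)) (dgFun F)
    (isClosedEmbedding_dgFun F)

theorem dgFun_q (x : F.S) (w : J → W ⊕ W' → ℂ) : dgFun F (F.q (x, w)) =
    (F.q (x, fun j a => w j (Sum.inl a)), F.q (x, fun j a => w j (Sum.inr a))) := by
  refine Prod.ext ?_ ?_
  · exact Bun.E_ext rfl rfl
  · exact Bun.E_ext rfl rfl

/-- the homeomorphism `ℂ^{J × W} × ℂ^{J × W'} ≃ ℂ^{J × (W ⊕ W')}` -/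
def fibSumHomeo (J W W' : Type) : ((J → W → ℂ) × (J → W' → ℂ)) ≃ₜ (J → W ⊕ W' → ℂ) where
  toFun q j := Sum.elim (q.1 j) (q.2 j)
  invFun w := (fun j a => w j (Sum.inl a), fun j a => w j (Sum.inr a))
  left_inv q := rfl
  right_inv w := by
    funext j a
    rcases a with a | a <;> rfl
  continuous_toFun := by
    refine continuous_pi fun j => continuous_pi fun a => ?_
    rcases a with a | a
    · simp only [Sum.elim_inl]; fun_prop
    · simp only [Sum.elim_inr]; fun_prop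
  continuous_invFun := by fun_prop

/-- `ℂ^{J × W} ⊗ ℂ^{J × W'} ≅ ℂ^{J × (W ⊕ W')}` -/
def fibSum (J W W' : Type) [Fintype J] [Fintype W] [Fintype W'] :
    Fib J W ⊗ Fib J W' ≅ Fib J (W ⊕ W') :=
  ofHomeo (X := LC.of ((J → W → ℂ) × (J → W' → ℂ))) (Y := Fib J (W ⊕ W')) (fibSumHomeo J W W')

/-- the diagonal of a compact space -/
def dS (S : Type) [TopologicalSpace S] [CompactSpace S] [T2Space S] :
    LC.of S ⟶ LC.of S ⊗ LC.of S :=
  ofCompact (X := LC.of S) (Y := LC.of (S × S)) (fun x => (x, x)) (by fun_prop)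

theorem covR_dg : (fibSum J W W').hom ▷ LC.of F.S ≫ covR F (W ⊕ W') ≫ dg F W W' =
    ((Fib J W ⊗ Fib J W') ◁ dS F.S) ≫ tensorμ _ _ _ _ ≫ (covR F W ⊗ₘ covR F W') := by
  apply hom_ext
  rintro ⟨⟨w, w'⟩, x⟩
  change OnePoint.some (dgFun F (F.q (x, fun j => Sum.elim (w j) (w' j)))) = _
  rw [dgFun_q]
  rfl

theorem fib_dg (e : F.S) : (fibSum J W W').hom ≫ fib F e (W ⊕ W') ≫ dg F W W' =
    (fib F e W ⊗ₘ fib F e W') := by
  apply hom_ext
  rintro ⟨w, w'⟩
  change OnePoint.some (dgFun F (F.q (e, fun j => Sum.elim (w j) (w' j)))) = _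
  rw [dgFun_q]
  rfl

/-- the linear part of `powE` -/
theorem covR_powE [Nonempty J] (f : LC.of (W → ℂ) ⟶ LC.of (W' → ℂ)) :
    covR F W ≫ powE F f = (LC.powHom J f ▷ LC.of F.S) ≫ covR F W' := by
  rw [covR, Category.assoc, cov_powE, covR, BraidedCategory.braiding_naturality_left_assoc]

theorem fib_powE [Nonempty J] (e : F.S) (f : LC.of (W → ℂ) ⟶ LC.of (W' → ℂ)) :
    fib F e W ≫ powE F f = LC.powHom J f ≫ fib F e W' := by
  rw [fib_eq_covR, fib_eq_covR, Category.assoc, Category.assoc, covR_powE,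
    whisker_exchange_assoc, rightUnitor_inv_naturality_assoc]

end frames

end Vale.Agent.P257.H104
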