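import Vale.Agent.P257.H104.Maps
import Vale.Agent.P257.H104.Diag
import Vale.Agent.P257.H319.TSplit

/-!
# P257: the families over the lens space as `Fam`s

* `covLT`, `famE` : the family `E(W ⊗ ρ)` over the lens space, covered by `S(ℂⁿ) × ℂ^{JW}`;
* `famE_nat` : naturality in maps `ℂ^W ⟶ ℂ^W'`;
* `famE_add` : the fibrewise diagonal;
* `dT_pr_left`, `dT_pr_right` : the counit laws of the diagonal of `S(ℂⁿ)`.
-/

open Set Filter Topology OnePoint CategoryTheory MonoidalCategory Matrix Limits Pretriangulated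
open Functor.LaxMonoidal Functor.OplaxMonoidal Functor.Monoidal
open Vale.Agent.P251 Vale.Agent.P251.G Vale.Agent.P251.G.Cell Vale.Agent.P251.G.LC
  Vale.Agent.P251.I Vale.Agent.P251.T Vale.Agent.P251.S Vale.Agent.P251.H Vale.Agent.P251.M
  Vale.Agent.P257.H314 Vale.Agent.P257.H319

noncomputable section

set_option linter.unusedSectionVars false

universe v u

namespace Vale.Agent.P257.H104

variable {p : ℕ} (hp : p ≠ 0) (hp2 : 2 ≤ p) {n : ℕ} (hn : 0 < n)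
variable {W W' : Type} [Fintype W] [DecidableEq W] [Fintype W'] [DecidableEq W']

/-- the covering in `FCat`, the sphere on the left -/
def covLF (n : ℕ) (W : Type) [Fintype W] [DecidableEq W] : SF hp n ⊗ FibF p W ⟶ eF hp n W :=
  FCat.hom (cov (LF p hp n) W)

/-- the power of a map in `FCat` -/
def powF (p : ℕ) (f : LC.of (W → ℂ) ⟶ LC.of (W' → ℂ)) : FibF p W ⟶ FibF p W' :=
  FCat.hom (powHom (Fin p) f)

/-- the fibrewise power of a map in `FCat` -/
def powEF [Nonempty (Fin p)] (n : ℕ) (f : LC.of (W → ℂ) ⟶ LC.of (W' → ℂ)) :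
    eF hp n W ⟶ eF hp n W' :=
  FCat.hom (powE (LF p hp n) f)

/-- the diagonal of the sphere in `FCat` -/
def dSF (n : ℕ) : SF hp n ⟶ SF hp n ⊗ SF hp n := FCat.hom (dS (LF p hp n).S)

/-- the fibrewise diagonal in `FCat` -/
def dgF (n : ℕ) (W W' : Type) [Fintype W] [DecidableEq W] [Fintype W'] [DecidableEq W'] :
    eF hp n (W ⊕ W') ⟶ eF hp n W ⊗ eF hp n W' := FCat.hom (dg (LF p hp n) W W')

/-- the decomposition of the fibre in `FCat` -/
def fibSumF (p : ℕ) (W W' : Type) [Fintype W] [DecidableEq W] [Fintype W'] [DecidableEq W'] :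
    FibF p W ⊗ FibF p W' ≅ FibF p (W ⊕ W') :=
  fcIso (X := FibF p W ⊗ FibF p W') (Y := FibF p (W ⊕ W')) (fibSum (Fin p) W W')

theorem pt_covLF : (ptFm hp hn ▷ FibF p W) ≫ covLF hp n W =
    (λ_ (FibF p W)).hom ≫ fibF hp hn W := by
  ext1
  apply hom_ext
  rintro ⟨⟨⟩, w⟩
  rfl

theorem covLF_powEF [Nonempty (Fin p)] (f : LC.of (W → ℂ) ⟶ LC.of (W' → ℂ)) :
    covLF hp n W ≫ powEF hp n f = (SF hp n ◁ powF p f) ≫ covLF hp n W' := by
  ext1
  exact cov_powE (LF p hp n) f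

theorem covLF_dgF : (SF hp n ◁ (fibSumF p W W').hom) ≫ covLF hp n (W ⊕ W') ≫ dgF hp n W W' =
    (dSF hp n ▷ (FibF p W ⊗ FibF p W')) ≫ tensorμ _ _ _ _ ≫ (covLF hp n W ⊗ₘ covLF hp n W') := by
  ext1
  apply hom_ext
  rintro ⟨x, ⟨w, w'⟩⟩
  change OnePoint.some (dgFun (LF p hp n) ((LF p hp n).q (x, fun j => Sum.elim (w j) (w' j)))) = _
  rw [dgFun_q]
  rfl

theorem dSF_pr_left : dSF hp n ≫ (prFm hp n ▷ SF hp n) = (λ_ (SF hp n)).inv := by
  ext1
  apply hom_ext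
  intro x
  rfl

theorem dSF_pr_right : dSF hp n ≫ (SF hp n ◁ prFm hp n) = (ρ_ (SF hp n)).inv := by
  ext1
  apply hom_ext
  intro x
  rfl

section T

variable {T : Type u} [Category.{v} T] [Preadditive T] [HasZeroObject T]
    [HasShift T ℤ] [∀ n : ℤ, (shiftFunctor T n).Additive] [Pretriangulated T]
    [MonoidalCategory T] [SymmetricCategory T] [TensorTriangulated T] (F : SpaceFunctor T)

/-- the covering, the sphere on the left -/
def covLT (n : ℕ) (W : Type) [Fintype W] [DecidableEq W] : YT hp F n ⊗ XT F p W ⟶ ET hp F n W :=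
  μ F.S _ _ ≫ F.S.map (covLF hp n W)

/-- the power of a map -/
def powT (p : ℕ) (f : LC.of (W → ℂ) ⟶ LC.of (W' → ℂ)) : XT F p W ⟶ XT F p W' :=
  F.S.map (powF p f)

/-- the fibrewise power of a map -/
def powET [Nonempty (Fin p)] (n : ℕ) (f : LC.of (W → ℂ) ⟶ LC.of (W' → ℂ)) :
    ET hp F n W ⟶ ET hp F n W' := F.S.map (powEF hp n f)

/-- the diagonal of the sphere -/
def dT (n : ℕ) : YT hp F n ⟶ YT hp F n ⊗ YT hp F n := F.S.map (dSF hp n) ≫ δ F.S _ _

/-- the fibrewise diagonal -/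
def dgT (n : ℕ) (W W' : Type) [Fintype W] [DecidableEq W] [Fintype W'] [DecidableEq W'] :
    ET hp F n (W ⊕ W') ⟶ ET hp F n W ⊗ ET hp F n W' := F.S.map (dgF hp n W W') ≫ δ F.S _ _

/-- the decomposition of the fibre -/
def fibSumT (p : ℕ) (W W' : Type) [Fintype W] [DecidableEq W] [Fintype W'] [DecidableEq W'] :
    XT F p (W ⊕ W') ≅ XT F p W ⊗ XT F p W' :=
  (F.S.mapIso (fibSumF p W W')).symm ≪≫ (μIso F.S _ _).symm

theorem pt_covLT : (ptT hp hn F ▷ XT F p W) ≫ covLT hp F n W =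
    (λ_ (XT F p W)).hom ≫ fibT hp hn F W := by
  rw [ptT, covLT, comp_whiskerRight, Category.assoc, μ_natural_left_assoc, ← Functor.map_comp,
    pt_covLF, Functor.map_comp, fibT, Functor.LaxMonoidal.left_unitality]
  simp only [Category.assoc]

theorem covLT_powET [Nonempty (Fin p)] (f : LC.of (W → ℂ) ⟶ LC.of (W' → ℂ)) :
    covLT hp F n W ≫ powET hp F n f = (YT hp F n ◁ powT F p f) ≫ covLT hp F n W' := by
  rw [covLT, powET, powT, covLT, Category.assoc, ← Functor.map_comp, covLF_powEF,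
    Functor.map_comp, μ_natural_right_assoc]

theorem dT_pr_left : dT hp F n ≫ (prT hp F n ▷ YT hp F n) = (λ_ (YT hp F n)).inv := by
  rw [dT, prT, comp_whiskerRight, Category.assoc, δ_natural_left_assoc, ← Functor.map_comp_assoc,
    dSF_pr_left, Functor.OplaxMonoidal.left_unitality]

theorem dT_pr_right : dT hp F n ≫ (YT hp F n ◁ prT hp F n) = (ρ_ (YT hp F n)).inv := by
  rw [dT, prT, MonoidalCategory.whiskerLeft_comp, Category.assoc, δ_natural_right_assoc,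
    ← Functor.map_comp_assoc, dSF_pr_right, Functor.OplaxMonoidal.right_unitality]

theorem covLF_dgF' : covLF hp n (W ⊕ W') ≫ dgF hp n W W' =
    (SF hp n ◁ (fibSumF p W W').inv) ≫ (dSF hp n ▷ (FibF p W ⊗ FibF p W')) ≫
      tensorμ _ _ _ _ ≫ (covLF hp n W ⊗ₘ covLF hp n W') := by
  rw [← covLF_dgF, ← MonoidalCategory.whiskerLeft_comp_assoc, Iso.inv_hom_id,
    MonoidalCategory.whiskerLeft_id, Category.id_comp]

/-- compatibility of the exchange with the functor -/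
@[reassoc]
theorem μ_map_tensorμ_δ (W X Y Z : FCat) :
    μ F.S (W ⊗ X) (Y ⊗ Z) ≫ F.S.map (tensorμ W X Y Z) ≫ δ F.S (W ⊗ Y) (X ⊗ Z) =
      (δ F.S W X ⊗ₘ δ F.S Y Z) ≫ tensorμ _ _ _ _ ≫ (μ F.S W Y ⊗ₘ μ F.S X Z) := by
  have h := tensorμ_comp_μ_tensorHom_μ_comp_μ F.S W X Y Z
  have h2 : (δ F.S W X ⊗ₘ δ F.S Y Z) ≫ (μ F.S W X ⊗ₘ μ F.S Y Z) = 𝟙 _ := by
    rw [tensorHom_comp_tensorHom, δ_μ, δ_μ, id_tensorHom_id]
  calc μ F.S (W ⊗ X) (Y ⊗ Z) ≫ F.S.map (tensorμ W X Y Z) ≫ δ F.S (W ⊗ Y) (X ⊗ Z)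
      = ((δ F.S W X ⊗ₘ δ F.S Y Z) ≫ (μ F.S W X ⊗ₘ μ F.S Y Z)) ≫
        μ F.S (W ⊗ X) (Y ⊗ Z) ≫ F.S.map (tensorμ W X Y Z) ≫ δ F.S (W ⊗ Y) (X ⊗ Z) := by
        rw [h2, Category.id_comp]
    _ = (δ F.S W X ⊗ₘ δ F.S Y Z) ≫ ((μ F.S W X ⊗ₘ μ F.S Y Z) ≫
        μ F.S (W ⊗ X) (Y ⊗ Z) ≫ F.S.map (tensorμ W X Y Z)) ≫ δ F.S (W ⊗ Y) (X ⊗ Z) := by
        simp only [Category.assoc]
    _ = _ := by
        rw [← h]
        simp only [Category.assoc, μ_δ, Category.comp_id]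

theorem covLT_dgT : covLT hp F n (W ⊕ W') ≫ dgT hp F n W W' =
    (dT hp F n ⊗ₘ (fibSumT F p W W').hom) ≫ tensorμ _ _ _ _ ≫
      (covLT hp F n W ⊗ₘ covLT hp F n W') := by
  have h1 : (fibSumT F p W W').hom = F.S.map (fibSumF p W W').inv ≫ δ F.S _ _ := rfl
  rw [covLT, dgT, Category.assoc, ← Functor.map_comp_assoc, covLF_dgF', Functor.map_comp,
    Functor.map_comp, Functor.map_comp]
  simp only [Category.assoc]
  rw [← μ_natural_right_assoc, ← μ_natural_left_assoc, ← δ_natural, μ_map_tensorμ_δ_assoc, h1, dT,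
    ← tensorHom_comp_tensorHom,
    MonoidalCategory.tensorHom_def' (F.S.map (dSF hp n)) (F.S.map (fibSumF p W W').inv)]
  simp only [Category.assoc, tensorHom_comp_tensorHom]
  rfl

section fam

variable {C : T} {u : 𝟙_ T ⟶ C} [IsTriangulated T]

/-- the cells of the low part relative to the fibre -/
theorem cofIn_fibLowF : CofIn (FinCell T {k : ℤ | ((2 * (Fintype.card W * p) : ℕ) : ℤ) + 1 ≤ k ∧
    k ≤ ((2 * (Fintype.card W * p) : ℕ) : ℤ) + (2 * (n : ℤ) - 1) - 1})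
      (F.S.map (fibLowF hp hn W)) := by
  refine relCell_cofIn F (finCell_extClosed _) (fun d hd => ?_) (fibLowF hp hn W)
    (relCell_fibLow p hp W hn)
  obtain ⟨h1, h2⟩ := hd
  refine FinCell.sphere _ ⟨?_, ?_⟩ <;> omega

/-- **The family `E(W ⊗ ρ)` over the lens space.** -/
def famE (c : Coef C u (p : ℤ) (2 * (n : ℤ) - 1)) (s : SplitA (YT hp F n) (2 * (n : ℤ) - 1))
    (hpt : s.pt = ptT hp hn F) (hp2 : 2 ≤ p) (W : Type) [Fintype W] [DecidableEq W] :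
    Fam C u s (XT F p W) where
  bij := whiskerLeft_bij (eX F p W)
  E := ET hp F n W
  cov := covLT hp F n W
  fib := fibT hp hn F W
  pt_cov := by rw [hpt, pt_covLT]
  ex := by
    obtain ⟨θ, hθ⟩ := exists_theta hp (W := W) F (C := C) hn
      (fun j h1 h2 => c.van j h1 (by omega)) (un u (XT F p W))
    refine ⟨F.S.map (FCat.hom (eToGr p hp W n).thom) ≫ θ, ?_⟩
    rw [← hθ, fibT, ← Functor.map_comp_assoc]
    rfl
  uniq := by
    intro M D₁ D₂ h
    obtain ⟨Z, g, h', e, D, hg⟩ := exists_topTriangle hp hp2 hn F W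
    refine cov_eq_of_fib c s (eX F p W) (cofIn_fibLowF hp hn F) D (covLT hp F n W)
      (μ F.S _ _ ≫ F.S.map (FCat.hom (coll₀ hp hp2 hn W)) ≫ e) ?_ ?_
    · have h1 : F.S.map (covLF hp n W ≫ collF hp hp2 hn W) =
          p • F.S.map (FCat.hom (coll₀ hp hp2 hn W) : covF hp n W ⟶ cellF hp hp2 hn W) :=
        map_cov_collTop hp hp2 F hn W
      rw [hg, covLT, Category.assoc, ← Functor.map_comp_assoc, h1, Preadditive.nsmul_comp,
        Preadditive.comp_nsmul, natCast_zsmul]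
    · rw [← Functor.map_comp_assoc, ← Functor.map_comp_assoc, fibLowF_lowF]
      exact h

variable (c : Coef C u (p : ℤ) (2 * (n : ℤ) - 1)) (s : SplitA (YT hp F n) (2 * (n : ℤ) - 1))
  (hpt : s.pt = ptT hp hn F)

/-- Naturality in maps `ℂ^W ⟶ ℂ^W'`. -/
theorem famE_nat [Nonempty (Fin p)] (f : LC.of (W → ℂ) ⟶ LC.of (W' → ℂ)) :
    powT F p f ⊗ₘ (famE hp hn F c s hpt hp2 W).o = powT F p f ⊗ₘ (famE hp hn F c s hpt hp2 W').o :=
  Fam.tensor_o _ _ _ (Fam.co_natural _ _ (powT F p f) (powET hp F n f) (covLT_powET hp F f))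

/-- Additivity. -/
theorem famE_add (hpr : s.pr = prT hp F n) : (famE hp hn F c s hpt hp2 (W ⊕ W')).o =
    (famE hp hn F c s hpt hp2 W).o + (famE hp hn F c s hpt hp2 W').o := by
  have h0 : (0 : ℤ) < 2 * (n : ℤ) - 1 := by omega
  have hl : dT hp F n ≫ (s.pr ▷ YT hp F n) ≫ (λ_ (YT hp F n)).hom = 𝟙 _ := by
    rw [hpr, ← Category.assoc, dT_pr_left, Iso.inv_hom_id]
  have hr : dT hp F n ≫ (YT hp F n ◁ s.pr) ≫ (ρ_ (YT hp F n)).hom = 𝟙 _ := by
    rw [hpr, ← Category.assoc, dT_pr_right, Iso.inv_hom_id]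
  exact Fam.o_add c _ _ _ (fibSumT F p W W') (dT hp F n) (dgT hp F n W W')
    (s.pt_diag hl hr (unit_conn F) h0) (s.sec_diag hl hr (unit_conn F) h0) (covLT_dgT hp F)

end fam

end T

end Vale.Agent.P257.H104
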