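import Vale.Agent.P257.H104.Diag

/-!
# P257: cells of the projective space and the bundle `W ⊗ (1 ⊕ L ⊕ … ⊕ L^{p-1})` on it
-/

open Set Metric Topology OnePoint CategoryTheory MonoidalCategory Matrix
open Vale.Agent.P251.G Vale.Agent.P251.G.Cell Vale.Agent.P251.G.LC

noncomputable section

set_option linter.unusedSectionVars false

namespace Vale.Agent.P257.H104

variable {n : ℕ}

/-- the projective space of `ℂᵏ` -/
def Gset (n k : ℕ) : Set (Gr 1 (Fin n)) := {Q | ∀ i : Fin n, k ≤ i → Q.P i i = 0}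

theorem isClosed_Gset (k : ℕ) : IsClosed (Gset n k) := by
  have : Gset n k = ⋂ i : Fin n, ⋂ (_ : k ≤ (i : ℕ)), {Q : Gr 1 (Fin n) | Q.P i i = 0} := by
    ext; simp [Gset]
  rw [this]
  exact isClosed_iInter fun i => isClosed_iInter fun _ =>
    isClosed_eq ((continuous_apply i).comp ((continuous_apply i).comp Gr.continuous_P))
      continuous_const

theorem line_P_diag (x : SS (Fin n)) (i : Fin n) : x.line.P i i = 0 ↔ x.v i = 0 := by
  rw [SS.line_P, lineP, Matrix.vecMulVec_apply, Pi.star_apply]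
  simp

theorem mem_Gset_line {k : ℕ} {x : SS (Fin n)} :
    x.line ∈ Gset n k ↔ ∀ i : Fin n, k ≤ i → x.v i = 0 :=
  forall_congr' fun i => forall_congr' fun _ => line_P_diag x i

theorem Gset_last : Gset n n = univ := by
  ext y
  simp only [mem_univ, iff_true]
  intro i hi
  exact absurd i.2 (not_lt.2 hi)

theorem Gset_mono {k l : ℕ} (h : k ≤ l) : Gset n k ⊆ Gset n l := fun _ hy i hi =>
  hy i (h.trans hi)

/-- A point of the projective space, in normal form. -/
theorem exists_normal_line {k : Fin n} {x : SS (Fin n)}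
    (hx0 : ∀ i, k < i → x.v i = 0) (hxk : x.v k ≠ 0) :
    ∃ z : Fin k → ℂ, nsq z < 1 ∧
      ∃ hz : nsq (ev k z ((Real.sqrt (1 - nsq z) : ℝ) * 1)) = 1,
      (mkSS (ev k z ((Real.sqrt (1 - nsq z) : ℝ) * 1)) hz).line = x.line := by
  have hpos : 0 < ‖x.v k‖ := norm_pos_iff.2 hxk
  let a : ℂ := (‖x.v k‖ : ℝ) / x.v k
  have ha1 : Complex.normSq a = 1 := by
    simp only [a]
    rw [map_div₀, Complex.normSq_ofReal, Complex.normSq_eq_norm_sq, ← sq]
    exact div_self (pow_ne_zero 2 hpos.ne')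
  let z : Fin k → ℂ := fun i => a * x.v ⟨i, i.2.trans k.2⟩
  have hak : a * x.v k = (‖x.v k‖ : ℝ) := by
    simp only [a]
    exact div_mul_cancel₀ _ hxk
  have hev : ev k z (a * x.v k) = a • x.v := by
    conv_rhs => rw [← ev_eq_of k x.v hx0]
    rw [← ev_smul]
    rfl
  have hn1 : nsq z + Complex.normSq (a * x.v k) = 1 := by
    rw [← nsq_ev, hev, nsq_smul, ha1, x.nsq_v, one_mul]
  have hn2 : Complex.normSq (a * x.v k) = ‖x.v k‖ ^ 2 := by
    rw [map_mul, ha1, one_mul, Complex.normSq_eq_norm_sq]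
  rw [hn2] at hn1
  have hsq : Real.sqrt (1 - nsq z) = ‖x.v k‖ := by
    rw [← hn1, add_sub_cancel_left, Real.sqrt_sq hpos.le]
  refine ⟨z, by nlinarith [sq_nonneg ‖x.v k‖, mul_pos hpos hpos], ?_⟩
  have hev2 : ev k z ((Real.sqrt (1 - nsq z) : ℝ) * 1) = a • x.v := by
    rw [mul_one, hsq, ← hak, hev]
  refine ⟨by rw [hev2, nsq_smul, ha1, x.nsq_v, one_mul], ?_⟩
  symm
  rw [SS.line_eq_iff]
  exact ⟨a, ha1, hev2⟩

/-- One cell of the projective space. -/
theorem cellStep_line (k : Fin n) : CellStep (2 * k) (Gset n k) (Gset n (k + 1)) := by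
  have : NeZero n := ⟨by rintro rfl; exact k.elim0⟩
  have hfr : Module.finrank ℝ (EuclideanSpace ℂ (Fin k)) = 2 * k := by
    rw [finrank_real_of_complex, finrank_euclideanSpace, Fintype.card_fin]
  have hle : ∀ z ∈ closedBall (0 : EuclideanSpace ℂ (Fin k)) 1, nsq (fun i => z i) ≤ 1 := by
    intro z hz
    rw [nsq_toEuc, sq_le_one_iff₀ (norm_nonneg _)]
    exact mem_closedBall_zero_iff.1 hz
  have hlt : ∀ z ∈ ball (0 : EuclideanSpace ℂ (Fin k)) 1, nsq (fun i => z i) < 1 := by
    intro z hz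
    rw [nsq_toEuc, sq_lt_one_iff₀ (norm_nonneg _)]
    exact mem_ball_zero_iff.1 hz
  have h1 : ∀ z : Fin k → ℂ, nsq z ≤ 1 → nsq (ev k z ((Real.sqrt (1 - nsq z) : ℝ) * 1)) = 1 :=
    fun z hz => nsq_ev_sqrt k hz norm_one
  refine cellStep_of_body hfr (K := closedBall 0 1) (U := ball 0 1) (convex_closedBall _ _)
    (isCompact_closedBall _ _) (interior_closedBall _ one_ne_zero) ⟨0, mem_ball_self one_pos⟩
    (Gset_mono (Nat.le_succ _))
    (fun z => (toSS (ev k (fun i => z i) ((Real.sqrt (1 - nsq fun i => z i) : ℝ) * 1))).line)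
    ?_ ?_ ?_ ?_ ?_
  · refine SS.continuous_line.comp_continuousOn (continuousOn_toSS.comp ?_ ?_)
    · refine Continuous.continuousOn ?_
      refine (continuous_ev k).comp (continuous_toEuc.prodMk ?_)
      exact (Complex.continuous_ofReal.comp
        (continuous_sqrt_nsq.comp continuous_toEuc)).mul continuous_const
    · intro z hz
      exact h1 _ (hle z hz)
  · intro z hz hzU
    have h2 : nsq (fun i => z i) = 1 := by
      rw [nsq_toEuc]
      have h3 : ‖z‖ = 1 := le_antisymm (mem_closedBall_zero_iff.1 hz)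
        (not_lt.1 fun h => hzU (mem_ball_zero_iff.2 h))
      rw [h3, one_pow]
    rw [mem_Gset_line, toSS_v (h1 _ (hle z hz))]
    intro i hi
    rcases eq_or_lt_of_le hi with h4 | h4
    · have : i = k := Fin.ext h4.symm
      rw [this, ev_self, h2]
      simp
    · exact ev_gt k _ _ (Fin.lt_def.2 h4)
  · intro z hz z' hz' heq
    have hz1 := hlt z hz
    have hz2 := hlt z' hz'
    simp only at heq
    rw [SS.line_eq_iff, toSS_v (h1 _ hz1.le), toSS_v (h1 _ hz2.le)] at heq
    obtain ⟨c, hc, hcz⟩ := heq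
    rw [← ev_smul] at hcz
    obtain ⟨hz3, hz4⟩ := ev_inj k hcz
    rw [mul_one, mul_one] at hz4
    have hs1 : 0 < Real.sqrt (1 - nsq fun i => z i) := Real.sqrt_pos.2 (by linarith)
    have hcn : ‖c‖ = 1 := by
      rw [Complex.normSq_eq_norm_sq] at hc
      nlinarith [norm_nonneg c]
    have hs2 : Real.sqrt (1 - nsq fun i => z' i) = Real.sqrt (1 - nsq fun i => z i) := by
      have := congrArg norm hz4
      rw [norm_mul, hcn, one_mul, Complex.norm_real, Complex.norm_real, Real.norm_eq_abs,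
        Real.norm_eq_abs, abs_of_nonneg (Real.sqrt_nonneg _), abs_of_nonneg (Real.sqrt_nonneg _)]
        at this
      exact this
    have hc1 : c = 1 := by
      rw [hs2] at hz4
      have h5 : ((Real.sqrt (1 - nsq fun i => z i) : ℝ) : ℂ) ≠ 0 :=
        Complex.ofReal_ne_zero.2 hs1.ne'
      have h6 : c * ((Real.sqrt (1 - nsq fun i => z i) : ℝ) : ℂ) =
        1 * ((Real.sqrt (1 - nsq fun i => z i) : ℝ) : ℂ) := by rw [one_mul, ← hz4]
      exact mul_right_cancel₀ h5 h6
    rw [hc1, one_smul] at hz3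
    ext i
    exact (congrFun hz3 i).symm
  · intro z hz
    have hz1 := hlt z hz
    have hs1 : 0 < Real.sqrt (1 - nsq fun i => z i) := Real.sqrt_pos.2 (by linarith)
    constructor
    · rw [mem_Gset_line, toSS_v (h1 _ hz1.le)]
      intro i hi
      exact ev_gt k _ _ (Fin.lt_def.2 (Nat.lt_of_succ_le hi))
    · rw [mem_Gset_line, toSS_v (h1 _ hz1.le)]
      intro h
      have := h k le_rfl
      rw [ev_self, mul_one] at this
      exact hs1.ne' (Complex.ofReal_eq_zero.1 this)
  · intro y hy hyL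
    obtain ⟨x, rfl⟩ := SS.line_surjective y
    rw [mem_Gset_line] at hy hyL
    have hk : x.v k ≠ 0 := by
      intro h
      apply hyL
      intro i hi
      rcases eq_or_lt_of_le hi with h4 | h4
      · have : i = k := Fin.ext h4.symm
        rw [this, h]
      · exact hy i (Nat.succ_le_of_lt h4)
    obtain ⟨z, hz, hz1, hz2⟩ := exists_normal_line
      (fun i hi => hy i (Nat.succ_le_of_lt (Fin.lt_def.1 hi))) hk
    refine ⟨WithLp.toLp 2 z, ?_, ?_⟩
    · rw [mem_ball_zero_iff, ← sq_lt_one_iff₀ (norm_nonneg _), ← nsq_toEuc]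
      exact hz
    · rw [← hz2]
      congr 1
      exact toSS_of hz1

/-- the projective space of `ℂᵏ`, from the base point: even cells -/
theorem grChain {k l : ℕ} (hk : k ≤ l) (hl : l ≤ n) :
    CellChain {a | ∃ i, k ≤ i ∧ i < l ∧ a = 2 * i} (Gset n k) (Gset n l) := by
  induction l, hk using Nat.le_induction with
  | base => exact CellChain.refl _
  | succ l hk ih =>
    refine CellChain.step ?_ ((ih (by omega)).mono ?_) (cellStep_line (⟨l, hl⟩ : Fin n))
    · exact ⟨l, hk, Nat.lt_succ_self l, rfl⟩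
    · rintro a ⟨i, h1, h2, h3⟩
      exact ⟨i, h1, by omega, h3⟩

theorem Gset_one (hn : 0 < n) : Gset n 1 = {(pt₀ n hn).line} := by
  ext y
  rw [mem_singleton_iff]
  constructor
  · intro hy
    obtain ⟨x, rfl⟩ := SS.line_surjective y
    rw [mem_Gset_line] at hy
    have h1 : x.v = ev ⟨0, hn⟩ 0 (x.v ⟨0, hn⟩) := by
      conv_lhs => rw [← ev_eq_of ⟨0, hn⟩ x.v (fun i hi => hy i (Nat.succ_le_of_lt
        (Fin.lt_def.1 hi)))]
      congr 1
      funext i
      exact i.elim0
    have h2 : Complex.normSq (x.v ⟨0, hn⟩) = 1 := by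
      have := x.nsq_v
      rw [h1, nsq_ev, nsq_zero, zero_add] at this
      exact this
    symm
    rw [SS.line_eq_iff]
    refine ⟨x.v ⟨0, hn⟩, h2, ?_⟩
    rw [h1, pt₀, mkSS_v, ← ev_smul, smul_zero, mul_one, ev_self]
  · rintro rfl
    rw [mem_Gset_line]
    intro i hi
    exact ev_gt ⟨0, hn⟩ 0 1 (Fin.lt_def.2 (Nat.lt_of_succ_le hi))

/-- the bundle `1 ⊕ L ⊕ … ⊕ L^{p-1}` over the projective space -/
def rhoGr (p : ℕ) (κ : Type) [Fintype κ] : Bun (Gr 1 κ) (RhoIdx p κ) :=
  (Bun.triv (Gr 1 κ) Unit).sum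
    (Bun.sigma fun i : Fin (p - 1) => (taut 1 κ).tpow ((i : ℕ) + 1))

/-- the bundle `W ⊗ (1 ⊕ L ⊕ … ⊕ L^{p-1})` over the projective space -/
def vGr (p : ℕ) (κ : Type) [Fintype κ] (W : Type) [Fintype W] [DecidableEq W] :
    Bun (Gr 1 κ) (W × RhoIdx p κ) :=
  (Bun.triv (Gr 1 κ) W).tensor (rhoGr p κ)

variable (p : ℕ) (hp : p ≠ 0) (W : Type) [Fintype W] [DecidableEq W]

theorem LF_ρ_P (y : Lens p (Fin n)) : (LF p hp n).ρ.P y = (rhoGr p (Fin n)).P y.Q := by
  rw [lensFrames_ρ]
  rfl

theorem LF_ρW_P (y : Lens p (Fin n)) : ((LF p hp n).ρW W).P y = (vGr p (Fin n) W).P y.Q := by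
  rw [Frames.ρW_P, LF_ρ_P]
  rfl

theorem vGr_isRank (hp : p ≠ 0) : (vGr p (Fin n) W).IsRank (Fintype.card W * p) := by
  intro Q
  obtain ⟨x, rfl⟩ := SS.line_surjective Q
  have h := LF_isRank p hp W (x.lens p)
  rw [LF_ρW_P] at h
  exact h

/-- The bundle map from the lens space to the projective space. -/
def eToGr (n : ℕ) : BMap ((LF p hp n).ρW W) (vGr p (Fin n) W) where
  f := Lens.toGr p (Fin n)
  A _ := 1
  contA := continuous_const
  maps y v hv := by
    rw [one_mulVec, Lens.toGr_apply, ← LF_ρW_P p hp]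
    exact hv
  inj y v _ h := by rwa [one_mulVec] at h

/-- the fibre over a point -/
def fibGr (x : (LF p hp n).S) : Fib (Fin p) W ⟶ (vGr p (Fin n) W).tot :=
  fib (LF p hp n) x W ≫ (eToGr p hp W n).thom

variable {W} in
theorem app_fibGr_coe (x : (LF p hp n).S) (w : Fin p → W → ℂ) :
    app (fibGr p hp W x) (OnePoint.some w) =
      OnePoint.some ((eToGr p hp W n).toFun ((LF p hp n).q (x, w))) := rfl

theorem base_eToGr (e : ((LF p hp n).ρW W).E) :
    Bun.base ((eToGr p hp W n).toFun e) = (Bun.base e : Lens p (Fin n)).Q := rfl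

theorem vec_eToGr (e : ((LF p hp n).ρW W).E) :
    Bun.vec ((eToGr p hp W n).toFun e) = Bun.vec e := by
  rw [BMap.vec_toFun]
  exact one_mulVec _

theorem injective_fibGr (x : (LF p hp n).S) : Function.Injective (app (fibGr p hp W x)) := by
  intro a b h
  induction a using OnePoint.rec with
  | infty =>
    induction b using OnePoint.rec with
    | infty => rfl
    | coe y =>
      rw [app_infty] at h
      exact absurd h (OnePoint.infty_ne_coe _)
  | coe a =>
    induction b using OnePoint.rec with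
    | infty =>
      rw [app_infty] at h
      exact absurd h (OnePoint.coe_ne_infty _)
    | coe b =>
      apply injective_fib (LF p hp n) x
      rw [app_fib_coe, app_fib_coe]
      congr 1
      refine Bun.E_ext rfl ?_
      have h1 := congrArg Bun.vec (OnePoint.coe_injective h)
      have h2 := vec_eToGr p hp W ((LF p hp n).q (x, a))
      have h3 := vec_eToGr p hp W ((LF p hp n).q (x, b))
      exact h2.symm.trans (h1.trans h3)

theorem range_fibGr (x : (LF p hp n).S) :
    range (app (fibGr p hp W x)) = overSet (vGr p (Fin n) W) {SS.line x} := by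
  ext z
  constructor
  · rintro ⟨y, rfl⟩
    induction y using OnePoint.rec with
    | infty => exact Or.inl (app_infty _)
    | coe y => exact Or.inr ⟨_, rfl, rfl⟩
  · rintro (hx | ⟨q, hq, rfl⟩)
    · rw [mem_singleton_iff] at hx
      subst hx
      exact ⟨∞, app_infty _⟩
    · have hq' : Bun.base q = (SS.lens p x).Q := hq
      have h1 : ((LF p hp n).ρW W).P (SS.lens p x) *ᵥ Bun.vec q = Bun.vec q := by
        rw [LF_ρW_P, ← hq']
        exact Bun.P_vec q
      have h2 : OnePoint.some (((LF p hp n).ρW W).mkE (SS.lens p x) (Bun.vec q) h1) ∈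
          range (app (fib (LF p hp n) x W)) := by
        rw [range_fib]
        exact Or.inr ⟨_, rfl, rfl⟩
      obtain ⟨w, hw⟩ := h2
      refine ⟨w, ?_⟩
      rw [fibGr, app_comp, hw]
      change OnePoint.some ((eToGr p hp W n).toFun _) = _
      congr 1
      refine Bun.E_ext ?_ ?_
      · rw [base_eToGr]
        exact hq'.symm
      · rw [vec_eToGr]
        rfl

/-- the cells of the total space over the projective space relative to the fibre -/
theorem relCell_fibGr (hn : 0 < n) :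
    RelCell {a | ∃ i, 1 ≤ i ∧ i < n ∧ a = 2 * i + 2 * (Fintype.card W * p)}
      (fibGr p hp W (ptF p hp hn)) := by
  classical
  have h1 := thomChain _ (vGr_isRank (n := n) p W hp) (grChain (n := n) (k := 1) (l := n) hn le_rfl)
  have h2 : ({(pt₀ n hn).line} : Set (Gr 1 (Fin n))) = {SS.line (ptF p hp hn)} := rfl
  rw [Gset_one hn, h2, ← range_fibGr p hp W (ptF p hp hn), Gset_last, overSet_univ] at h1
  refine (relCell_of_chain _ (injective_fibGr p hp W _) h1).mono ?_
  rintro _ ⟨a, ⟨i, h3, h4, rfl⟩, rfl⟩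
  exact ⟨i, h3, h4, rfl⟩

theorem fc_vGr (n : ℕ) : FC (vGr p (Fin n) W).tot := fc_tot _

end Vale.Agent.P257.H104
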