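import Vale.Agent.P251.M.SpaceCells
import Vale.Agent.P251.M.Even

/-!
# P257: vanishing of Hom groups, exactness, extensions along relative cell complexes
-/

open CategoryTheory MonoidalCategory Limits Pretriangulated ZeroObject
open Vale.Agent.P251.T Vale.Agent.P251.S Vale.Agent.P251.H Vale.Agent.P251.G
  Vale.Agent.P251.G.LC Vale.Agent.P251.I Vale.Agent.P251.M

universe v u

set_option linter.unusedSectionVars false

noncomputable section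

namespace Vale.Agent.P257.H104

variable {T : Type u} [Category.{v} T] [Preadditive T] [HasZeroObject T]
    [HasShift T ℤ] [∀ n : ℤ, (shiftFunctor T n).Additive] [Pretriangulated T]
    [MonoidalCategory T] [SymmetricCategory T] [TensorTriangulated T]

/-- all morphisms `A ⟶ B` are zero -/
def HZ (A B : T) : Prop := ∀ g : A ⟶ B, g = 0

theorem HZ.iso {A A' B B' : T} (h : HZ A B) (e : A ≅ A') (e' : B ≅ B') : HZ A' B' := fun g => by
  have := h (e.hom ≫ g ≫ e'.inv)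
  rw [← cancel_epi e.hom, ← cancel_mono e'.inv]
  simpa using this

theorem HZ.shift {A B : T} (h : HZ A B) (n : ℤ) : HZ (A⟦n⟧) (B⟦n⟧) := fun g => by
  obtain ⟨f, rfl⟩ := (shiftFunctor T n).map_surjective g
  rw [h f, Functor.map_zero]

theorem HZ.sphere {C : T} {j : ℤ} (h : HZ ((𝟙_ T)⟦j⟧) C) {a b : ℤ} (hj : a = j + b) :
    HZ ((𝟙_ T)⟦a⟧) (C⟦b⟧) :=
  (h.shift b).iso ((shiftFunctorAdd' T j b a hj.symm).app (𝟙_ T)).symm (Iso.refl _)

/-- exactness of `C ⊗ -` -/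
theorem lift_left {A B Z : T} {f : A ⟶ B} {g : B ⟶ Z} {h : Z ⟶ A⟦(1 : ℤ)⟧} (D : Dist f g h)
    (C : T) {W : T} (x : W ⟶ C ⊗ B) (hx : x ≫ C ◁ g = 0) : ∃ y : W ⟶ C ⊗ A, y ≫ C ◁ f = x := by
  obtain ⟨y, hy⟩ := Triangle.coyoneda_exact₂ _ (TensorTriangulated.distinguished C _ D) x hx
  exact ⟨y, hy.symm⟩

theorem hz_left (A C : T) : ExtClosed fun Z => HZ A (C ⊗ Z) where
  zero X hX g := by
    have h1 : 𝟙 (C ⊗ X) = 0 := by
      rw [← MonoidalCategory.whiskerLeft_id, hX.eq_of_src (𝟙 X) 0,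
        MonoidalPreadditive.whiskerLeft_zero]
    rw [← Category.comp_id g, h1, comp_zero]
  ext D hX hZ g := by
    obtain ⟨b, rfl⟩ := lift_left D C g (hZ _)
    rw [hX b, zero_comp]

theorem hz_left' (A : T) : ExtClosed fun Z => HZ A Z where
  zero X hX g := hX.eq_of_tgt _ _
  ext D hX hZ g := by
    obtain ⟨b, rfl⟩ := D.lift₂ g (hZ _)
    rw [hX b, zero_comp]

theorem hz_right (B : T) : ExtClosed fun Z => HZ Z B where
  zero X hX g := hX.eq_of_src _ _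
  ext D hX hZ g := by
    obtain ⟨b, rfl⟩ := D.desc₂ g (hX _)
    rw [hZ b, comp_zero]

/-- exactness of `- ⊗ C` -/
theorem lift_right {A B Z : T} {f : A ⟶ B} {g : B ⟶ Z} {h : Z ⟶ A⟦(1 : ℤ)⟧} (D : Dist f g h)
    (C : T) {W : T} (x : W ⟶ B ⊗ C) (hx : x ≫ g ▷ C = 0) : ∃ y : W ⟶ A ⊗ C, y ≫ f ▷ C = x := by
  have h1 : (x ≫ (β_ B C).hom) ≫ C ◁ g = 0 := by
    rw [Category.assoc, ← BraidedCategory.braiding_naturality_left, reassoc_of% hx, zero_comp]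
  obtain ⟨y, hy⟩ := lift_left D C _ h1
  refine ⟨y ≫ (β_ C A).hom, ?_⟩
  have h2 := BraidedCategory.braiding_naturality_right C f
  calc (y ≫ (β_ C A).hom) ≫ f ▷ C = y ≫ (C ◁ f ≫ (β_ C B).hom) := by rw [h2, Category.assoc]
    _ = (y ≫ C ◁ f) ≫ (β_ C B).hom := (Category.assoc _ _ _).symm
    _ = x := by rw [hy, Category.assoc, SymmetricCategory.symmetry, Category.comp_id]

/-- Lifting along `f ▷ C` when the cofibre does not see `W`. -/
theorem lift_of_cofIn {A B : T} {f : A ⟶ B} (C W : T) (hf : CofIn (fun Z => HZ W (C ⊗ Z)) f)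
    (x : W ⟶ B ⊗ C) : ∃ y : W ⟶ A ⊗ C, y ≫ f ▷ C = x := by
  obtain ⟨Z, g, h, D, hZ⟩ := hf
  exact lift_right D C x ((hZ.iso (Iso.refl W) (β_ C Z)) _)

/-- Extension along `f`. -/
theorem ext_of_cofIn {A B W : T} {f : A ⟶ B} (hf : CofIn (fun Z => HZ Z (W⟦(1 : ℤ)⟧)) f)
    (a : A ⟶ W) : ∃ b : B ⟶ W, f ≫ b = a := by
  obtain ⟨Z, g, h, D, hZ⟩ := hf
  obtain ⟨b, hb⟩ := D.desc₁ (a⟦(1 : ℤ)⟧') (hZ _)
  obtain ⟨b', rfl⟩ := (shiftFunctor T (1 : ℤ)).map_surjective b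
  rw [← Functor.map_comp] at hb
  exact ⟨b', (shiftFunctor T (1 : ℤ)).map_injective hb⟩

section spheres

variable (F : SpaceFunctor T)

/-- a real vector space is a sphere -/
theorem exists_sphHomeo {E : Type} [NormedAddCommGroup E] [NormedSpace ℝ E]
    [FiniteDimensional ℝ E] {a : ℕ} (h : Module.finrank ℝ E = a) :
    Nonempty (E ≃ₜ (Fin a → ℝ)) := by
  have : Module.finrank ℝ E = Module.finrank ℝ (Fin a → ℝ) := by simp [h]
  exact ⟨(ContinuousLinearEquiv.ofFinrankEq this).toHomeomorph⟩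

/-- the suspension spectrum of a real vector space -/
theorem nonempty_sphIso {X : FCat} {a : ℕ} (e : Nonempty (X.obj ≃ₜ (Fin a → ℝ))) :
    Nonempty (F.S.obj X ≅ (𝟙_ T)⟦(a : ℤ)⟧) := by
  obtain ⟨e⟩ := e
  exact ⟨F.S.mapIso (fcIso (X := X) (Y := SphF a) (ofHomeo (X := X.obj) (Y := Sph a) e)) ≪≫
    sphIso F a⟩

end spheres

instance isInv_shift (a : ℤ) : IsInv ((𝟙_ T)⟦a⟧) :=
  IsInv.of_inverse (L' := (𝟙_ T)⟦-a⟧) (tensorUnitShiftIso ((𝟙_ T)⟦a⟧) (-a) ≪≫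
    (shiftFunctorCompIsoId T a (-a) (by ring)).app _)

/-- tensor product of spheres -/
def sphTensorIso {A B : T} {a b c : ℤ} (e : A ≅ (𝟙_ T)⟦a⟧) (e' : B ≅ (𝟙_ T)⟦b⟧)
    (h : a + b = c) : A ⊗ B ≅ (𝟙_ T)⟦c⟧ :=
  whiskerRightIso e B ≪≫ whiskerLeftIso _ e' ≪≫ tensorUnitShiftIso ((𝟙_ T)⟦a⟧) b ≪≫
    (shiftFunctorAdd' T a b c h).symm.app (𝟙_ T)

/-- `X ⊗ C` for a sphere `X` -/
def tensorCIso {A : T} {a : ℤ} (e : A ≅ (𝟙_ T)⟦a⟧) (C : T) : A ⊗ C ≅ C⟦a⟧ :=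
  whiskerRightIso e C ≪≫ β_ _ _ ≪≫ tensorUnitShiftIso C a

/-- the cofibre condition for relative cell complexes: lifting version -/
theorem cofIn_lift [IsTriangulated T] (F : SpaceFunctor T) {C W : T} {a : ℤ}
    (eW : W ≅ (𝟙_ T)⟦a⟧) {D : Set ℕ} (hD : ∀ d ∈ D, ∃ j : ℤ, HZ ((𝟙_ T)⟦j⟧) C ∧ a = j + d)
    {A B : FCat} (i : A ⟶ B) (hi : RelCell D i.hom) :
    CofIn (fun Z => HZ W (C ⊗ Z)) (F.S.map i) := by
  refine relCell_cofIn F (hz_left W C) (fun d hd => ?_) i hi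
  obtain ⟨j, hj, haj⟩ := hD d hd
  exact (hj.sphere haj).iso eW.symm (tensorUnitShiftIso C (d : ℤ)).symm

/-- the cofibre condition for relative cell complexes: extension version -/
theorem cofIn_ext [IsTriangulated T] (F : SpaceFunctor T) {C W : T} {a : ℤ}
    (eW : W ≅ C⟦a⟧) {D : Set ℕ} (hD : ∀ d ∈ D, ∃ j : ℤ, HZ ((𝟙_ T)⟦j⟧) C ∧ (d : ℤ) = j + (a + 1))
    {A B : FCat} (i : A ⟶ B) (hi : RelCell D i.hom) :
    CofIn (fun Z => HZ Z (W⟦(1 : ℤ)⟧)) (F.S.map i) := by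
  refine relCell_cofIn F (hz_right _) (fun d hd => ?_) i hi
  obtain ⟨j, hj, haj⟩ := hD d hd
  refine (hj.sphere haj).iso (Iso.refl _) ?_
  exact (shiftFunctorAdd' T a 1 (a + 1) rfl).app C ≪≫ (shiftFunctor T (1 : ℤ)).mapIso eW.symm

end Vale.Agent.P257.H104
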