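import Vale.Agent.P251.G.LensMaps
import Vale.Agent.P251.G.Lens
import Vale.Agent.P251.G.Cell
import Mathlib.Analysis.SpecialFunctions.Complex.Circle

/-!
# P257: the standard cell structure of the lens space `S(ℂⁿ)/μ_p`

`Lset k ⊂ Mset k ⊂ Lset (k+1)`: the classes of the vectors `x` with `x_i = 0` for `i ≥ k`,
resp. `x_i = 0` for `i > k` and `x_k ^ p ∈ ℝ≥0`.  Each step is one cell, of dimension `2k`
resp. `2k + 1`.
-/

open Set Metric Topology
open Vale.Agent.P251.G Vale.Agent.P251.G.Cell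

noncomputable section

namespace Vale.Agent.P257.H104

variable {p n : ℕ}

/-- the `p`-th power of a coordinate -/
def pw (y : Lens p (Fin n)) (k : Fin n) : ℂ := y.u fun _ => k

@[simp] theorem pw_lens (x : SS (Fin n)) (k : Fin n) : pw (x.lens p) k = x.v k ^ p := by
  rw [pw, SS.lens_u, tp_apply, Finset.prod_const, Finset.card_univ, Fintype.card_fin]

theorem continuous_pw (k : Fin n) : Continuous fun y : Lens p (Fin n) => pw y k :=
  (continuous_apply _).comp Lens.continuous_u

/-- the lens space of `ℂᵏ` -/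
def Lset (p n k : ℕ) : Set (Lens p (Fin n)) := {y | ∀ i : Fin n, k ≤ i → pw y i = 0}

/-- the nonnegative real numbers -/
def NN : Set ℂ := {z | z.im = 0 ∧ 0 ≤ z.re}

theorem isClosed_NN : IsClosed NN :=
  (isClosed_eq Complex.continuous_im continuous_const).inter
    (isClosed_le continuous_const Complex.continuous_re)

theorem ofReal_mem_NN {r : ℝ} (h : 0 ≤ r) : (r : ℂ) ∈ NN := ⟨Complex.ofReal_im r, h⟩

theorem zero_mem_NN : (0 : ℂ) ∈ NN := ⟨rfl, le_rfl⟩

/-- the next skeleton -/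
def Mset (p n : ℕ) (k : Fin n) : Set (Lens p (Fin n)) :=
  {y | (∀ i, k < i → pw y i = 0) ∧ pw y k ∈ NN}

theorem isClosed_Mset (k : Fin n) : IsClosed (Mset p n k) := by
  refine IsClosed.inter ?_ (isClosed_NN.preimage (continuous_pw k))
  have : {y : Lens p (Fin n) | ∀ i, k < i → pw y i = 0} =
      ⋂ i, ⋂ (_ : k < i), {y | pw y i = 0} := by ext; simp
  change IsClosed {y : Lens p (Fin n) | ∀ i, k < i → pw y i = 0}
  rw [this]
  exact isClosed_iInter fun i => isClosed_iInter fun _ =>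
    isClosed_eq (continuous_pw i) continuous_const

theorem Lset_zero (hp : p ≠ 0) : Lset p n 0 = ∅ := by
  ext y
  simp only [mem_empty_iff_false, iff_false]
  intro h
  obtain ⟨x, rfl⟩ := SS.lens_surjective hp y
  have h1 : x.v = 0 := by
    funext i
    have := h i (Nat.zero_le _)
    rw [pw_lens] at this
    exact pow_eq_zero_iff hp |>.1 this
  have h2 := x.nsq_v
  rw [h1, nsq_zero] at h2
  exact zero_ne_one h2

theorem Lset_last : Lset p n n = univ := by
  ext y
  simp only [mem_univ, iff_true]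
  intro i hi
  exact absurd i.2 (not_lt.2 hi)

theorem Lset_subset_Mset (k : Fin n) : Lset p n k ⊆ Mset p n k := fun y hy =>
  ⟨fun i hi => hy i (le_of_lt hi), by rw [hy k le_rfl]; exact zero_mem_NN⟩

theorem Mset_subset_Lset (k : Fin n) : Mset p n k ⊆ Lset p n (k + 1) := fun _ hy =>
  fun i hi => hy.1 i (Nat.lt_of_succ_le hi)

/-- extension of a vector -/
def ev (k : Fin n) (z : Fin k → ℂ) (c : ℂ) : Fin n → ℂ := fun i =>
  if h : (i : ℕ) < k then z ⟨i, h⟩ else if i = k then c else 0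

@[simp] theorem ev_self (k : Fin n) (z : Fin k → ℂ) (c : ℂ) : ev k z c k = c := by
  rw [ev, dif_neg (lt_irrefl _), if_pos rfl]

theorem ev_gt (k : Fin n) (z : Fin k → ℂ) (c : ℂ) {i : Fin n} (h : k < i) : ev k z c i = 0 := by
  rw [ev, dif_neg (not_lt.2 (le_of_lt (Fin.lt_def.1 h))), if_neg (ne_of_gt h)]

theorem ev_lt (k : Fin n) (z : Fin k → ℂ) (c : ℂ) (i : Fin k) :
    ev k z c ⟨i, i.2.trans k.2⟩ = z i := by
  rw [ev, dif_pos i.2]

theorem nsq_ev (k : Fin n) (z : Fin k → ℂ) (c : ℂ) :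
    nsq (ev k z c) = nsq z + Complex.normSq c := by
  let G : ℕ → ℝ := fun i =>
    if h : i < k then Complex.normSq (z ⟨i, h⟩) else if i = k then Complex.normSq c else 0
  have h1 : nsq (ev k z c) = ∑ i : Fin n, G i := by
    unfold nsq
    refine Finset.sum_congr rfl fun i _ => ?_
    simp only [ev, G, Fin.ext_iff]
    split_ifs <;> simp
  have h2 : nsq z = ∑ i : Fin k, G i := by
    unfold nsq
    refine Finset.sum_congr rfl fun i _ => ?_
    simp only [G, i.2, dite_true]
  have h3 : G k = Complex.normSq c := by simp [G]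
  rw [h1, h2, ← h3, Fin.sum_univ_eq_sum_range, Fin.sum_univ_eq_sum_range, ← Finset.sum_range_succ]
  symm
  refine Finset.sum_subset ?_ ?_
  · intro i hi
    rw [Finset.mem_range] at hi ⊢
    exact lt_of_lt_of_le hi k.2
  · intro i _ hi
    rw [Finset.mem_range, not_lt] at hi
    have h4 : ¬ i < k := by omega
    have h5 : ¬ i = k := by omega
    simp only [G, h4, h5, dite_false, if_false]

theorem ev_smul (k : Fin n) (z : Fin k → ℂ) (c a : ℂ) :
    ev k (a • z) (a * c) = a • ev k z c := by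
  funext i
  simp only [ev, Pi.smul_apply, smul_eq_mul]
  split_ifs <;> simp

theorem ev_eq_of (k : Fin n) (x : Fin n → ℂ) (h : ∀ i, k < i → x i = 0) :
    ev k (fun i : Fin k => x ⟨i, i.2.trans k.2⟩) (x k) = x := by
  funext i
  unfold ev
  split_ifs with h1 h2
  · rfl
  · rw [h2]
  · exact (h i (lt_of_le_of_ne (not_lt.1 h1) (Ne.symm h2))).symm

theorem ev_inj (k : Fin n) {z z' : Fin k → ℂ} {c c' : ℂ} (h : ev k z c = ev k z' c') :
    z = z' ∧ c = c' := by
  constructor
  · funext i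
    rw [← ev_lt k z c i, h, ev_lt]
  · rw [← ev_self k z c, h, ev_self]

theorem continuous_ev (k : Fin n) : Continuous fun q : (Fin k → ℂ) × ℂ => ev k q.1 q.2 := by
  refine continuous_pi fun i => ?_
  unfold ev
  by_cases h : (i : ℕ) < k
  · simp only [h, dite_true]
    exact (continuous_apply _).comp continuous_fst
  · simp only [h, dite_false]
    by_cases h' : i = k
    · simp only [h', if_true]; exact continuous_snd
    · simp only [h', if_false]; exact continuous_const

section toSS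

variable {κ : Type} [Fintype κ]

/-- constructor -/
def mkSS (x : κ → ℂ) (h : nsq x = 1) : SS κ := ⟨x, h⟩

@[simp] theorem mkSS_v (x : κ → ℂ) (h : nsq x = 1) : (mkSS x h).v = x := rfl

open scoped Classical in
/-- the unit sphere, with a junk value -/
def toSS [Nonempty (SS κ)] (x : κ → ℂ) : SS κ :=
  if h : nsq x = 1 then mkSS x h else Classical.arbitrary _

theorem toSS_of [Nonempty (SS κ)] {x : κ → ℂ} (h : nsq x = 1) : toSS x = mkSS x h := dif_pos h

theorem toSS_v [Nonempty (SS κ)] {x : κ → ℂ} (h : nsq x = 1) : (toSS x).v = x := by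
  rw [toSS_of h]; rfl

@[simp] theorem toSS_self [Nonempty (SS κ)] (x : SS κ) : toSS x.v = x := toSS_of x.2

theorem continuousOn_toSS [Nonempty (SS κ)] :
    ContinuousOn (toSS : (κ → ℂ) → SS κ) {x | nsq x = 1} := by
  rw [continuousOn_iff_continuous_domRestrict]
  have : ({x : κ → ℂ | nsq x = 1}.domRestrict toSS) = fun x => mkSS x.1 x.2 := by
    funext x
    exact toSS_of x.2
  rw [this]
  exact continuous_subtype_val.subtype_mk _

end toSS

instance nonempty_SS [NeZero n] : Nonempty (SS (Fin n)) := by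
  refine ⟨mkSS (ev (0 : Fin n) 0 1) ?_⟩
  rw [nsq_ev, nsq_zero]; simp

theorem nsq_toEuc {k : ℕ} (z : EuclideanSpace ℂ (Fin k)) : nsq (fun i => z i) = ‖z‖ ^ 2 := by
  rw [EuclideanSpace.norm_sq_eq, nsq]
  exact Finset.sum_congr rfl fun i _ => Complex.normSq_eq_norm_sq _

theorem continuous_toEuc {k : ℕ} :
    Continuous fun z : EuclideanSpace ℂ (Fin k) => (fun i => z i : Fin k → ℂ) :=
  PiLp.continuous_ofLp 2 _

/-- A variant of `CellStep.of_body`. -/
theorem cellStep_of_body {X : Type} [TopologicalSpace X] {E : Type} [NormedAddCommGroup E]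
    [NormedSpace ℝ E]
    [FiniteDimensional ℝ E] {a : ℕ} (hE : Module.finrank ℝ E = a) {K U : Set E}
    (hK : Convex ℝ K) (hc : IsCompact K) (hU : interior K = U) (hne : U.Nonempty) {B C : Set X}
    (hBC : B ⊆ C) (φ : E → X) (hφ : ContinuousOn φ K) (hs : ∀ x ∈ K, x ∉ U → φ x ∈ B)
    (hi : InjOn φ U) (hm : ∀ x ∈ U, φ x ∈ C ∧ φ x ∉ B)
    (him : ∀ y ∈ C, y ∉ B → ∃ x ∈ U, φ x = y) : CellStep a B C := by
  subst hU
  refine CellStep.of_body hE hK hc hne hBC φ hφ ?_ hi ?_
  · intro x hx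
    rw [hc.isClosed.frontier_eq] at hx
    exact hs x hx.1 hx.2
  · apply Subset.antisymm
    · rintro _ ⟨x, hx, rfl⟩
      exact hm x hx
    · rintro y ⟨hy, hyB⟩
      exact him y hy hyB

theorem mem_Lset_lens (hp : p ≠ 0) {k : ℕ} {x : SS (Fin n)} :
    x.lens p ∈ Lset p n k ↔ ∀ i : Fin n, k ≤ i → x.v i = 0 := by
  refine forall_congr' fun i => forall_congr' fun _ => ?_
  rw [pw_lens]
  exact pow_eq_zero_iff hp

theorem mem_Mset_lens (hp : p ≠ 0) {k : Fin n} {x : SS (Fin n)} :
    x.lens p ∈ Mset p n k ↔ (∀ i, k < i → x.v i = 0) ∧ x.v k ^ p ∈ NN := by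
  refine and_congr (forall_congr' fun i => forall_congr' fun _ => ?_) ?_
  · rw [pw_lens]
    exact pow_eq_zero_iff hp
  · rw [pw_lens]

/-- A point of the lens space, in normal form. -/
theorem exists_normal (hp : p ≠ 0) {k : Fin n} {y : Lens p (Fin n)}
    (h : ∀ i, k < i → pw y i = 0) {c : ℂ}
    (hk : pw y k ≠ 0) (hc : ∀ r : ℝ, 0 ≤ r → ‖pw y k‖ = r ^ p → ((r : ℂ) * c) ^ p = pw y k)
    (hc1 : ‖c‖ = 1) :
    ∃ z : Fin k → ℂ, nsq z < 1 ∧
      ∃ hz : nsq (ev k z ((Real.sqrt (1 - nsq z) : ℝ) * c)) = 1,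
      (mkSS (ev k z ((Real.sqrt (1 - nsq z) : ℝ) * c)) hz).lens p = y := by
  obtain ⟨x, rfl⟩ := SS.lens_surjective hp y
  rw [pw_lens] at hk hc
  have hxk : x.v k ≠ 0 := fun h0 => hk (by rw [h0, zero_pow hp])
  have hx0 : ∀ i, k < i → x.v i = 0 := fun i hi => by
    have := h i hi
    rw [pw_lens] at this
    exact (pow_eq_zero_iff hp).1 this
  have hcn := hc ‖x.v k‖ (norm_nonneg _) (norm_pow _ _)
  let a : ℂ := ((‖x.v k‖ : ℝ) * c) / x.v k
  have ha : a ^ p = 1 := by
    simp only [a]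
    rw [div_pow, hcn, div_self (pow_ne_zero _ hxk)]
  have ha1 : Complex.normSq a = 1 := normSq_of_pow_eq hp (by simp) ha
  let z : Fin k → ℂ := fun i => a * x.v ⟨i, i.2.trans k.2⟩
  have hak : a * x.v k = (‖x.v k‖ : ℝ) * c := by
    simp only [a]
    exact div_mul_cancel₀ _ hxk
  have hev : ev k z (a * x.v k) = a • x.v := by
    conv_rhs => rw [← ev_eq_of k x.v hx0]
    rw [← ev_smul]
    rfl
  have hn1 : nsq z + Complex.normSq (a * x.v k) = 1 := by
    rw [← nsq_ev, hev, nsq_smul, ha1, x.nsq_v, one_mul]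
  have hn2 : Complex.normSq (a * x.v k) = ‖x.v k‖ ^ 2 := by
    rw [map_mul, ha1, one_mul, Complex.normSq_eq_norm_sq]
  rw [hn2] at hn1
  have hpos : 0 < ‖x.v k‖ := norm_pos_iff.2 hxk
  have hsq : Real.sqrt (1 - nsq z) = ‖x.v k‖ := by
    rw [← hn1, add_sub_cancel_left, Real.sqrt_sq hpos.le]
  refine ⟨z, by nlinarith [sq_nonneg ‖x.v k‖, mul_pos hpos hpos], ?_⟩
  have hev2 : ev k z ((Real.sqrt (1 - nsq z) : ℝ) * c) = a • x.v := by
    rw [hsq, ← hak, hev]
  refine ⟨by rw [hev2, nsq_smul, ha1, x.nsq_v, one_mul], ?_⟩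
  symm
  rw [SS.lens_eq_iff hp]
  exact ⟨a, ha, hev2⟩

theorem nsq_ev_sqrt (k : Fin n) {z : Fin k → ℂ} (hz : nsq z ≤ 1) {c : ℂ} (hc : ‖c‖ = 1) :
    nsq (ev k z ((Real.sqrt (1 - nsq z) : ℝ) * c)) = 1 := by
  rw [nsq_ev, map_mul, Complex.normSq_ofReal, Complex.normSq_eq_norm_sq c, hc,
    Real.mul_self_sqrt (by linarith)]
  ring

theorem continuous_sqrt_nsq {k : ℕ} :
    Continuous fun z : Fin k → ℂ => Real.sqrt (1 - nsq z) :=
  Real.continuous_sqrt.comp (continuous_const.sub continuous_nsq)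

/-- The even cell. -/
theorem cellStep_even (hp : p ≠ 0) (k : Fin n) :
    CellStep (2 * k) (Lset p n k) (Mset p n k) := by
  have : NeZero n := ⟨by rintro rfl; exact k.elim0⟩
  have hfr : Module.finrank ℝ (EuclideanSpace ℂ (Fin k)) = 2 * k := by
    rw [finrank_real_of_complex, finrank_euclideanSpace, Fintype.card_fin]
  have hle : ∀ z ∈ closedBall (0 : EuclideanSpace ℂ (Fin k)) 1, nsq (fun i => z i) ≤ 1 := by
    intro z hz
    rw [nsq_toEuc, sq_le_one_iff₀ (norm_nonneg _)]
    exact mem_closedBall_zero_iff.1 hz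
  have hlt : ∀ z ∈ ball (0 : EuclideanSpace ℂ (Fin k)) 1, nsq (fun i => z i) < 1 := by
    intro z hz
    rw [nsq_toEuc, sq_lt_one_iff₀ (norm_nonneg _)]
    exact mem_ball_zero_iff.1 hz
  have h1 : ∀ z : Fin k → ℂ, nsq z ≤ 1 → nsq (ev k z ((Real.sqrt (1 - nsq z) : ℝ) * 1)) = 1 :=
    fun z hz => nsq_ev_sqrt k hz norm_one
  refine cellStep_of_body hfr (K := closedBall 0 1) (U := ball 0 1) (convex_closedBall _ _)
    (isCompact_closedBall _ _) (interior_closedBall _ one_ne_zero) ⟨0, mem_ball_self one_pos⟩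
    (Lset_subset_Mset k)
    (fun z => (toSS (ev k (fun i => z i) ((Real.sqrt (1 - nsq fun i => z i) : ℝ) * 1))).lens p)
    ?_ ?_ ?_ ?_ ?_
  · refine (SS.continuous_lens p).comp_continuousOn (continuousOn_toSS.comp ?_ ?_)
    · refine Continuous.continuousOn ?_
      refine (continuous_ev k).comp (continuous_toEuc.prodMk ?_)
      exact (Complex.continuous_ofReal.comp
        (continuous_sqrt_nsq.comp continuous_toEuc)).mul continuous_const
    · intro z hz
      exact h1 _ (hle z hz)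
  · intro z hz hzU
    have h2 : nsq (fun i => z i) = 1 := by
      rw [nsq_toEuc]
      have h3 : ‖z‖ = 1 := le_antisymm (mem_closedBall_zero_iff.1 hz)
        (not_lt.1 fun h => hzU (mem_ball_zero_iff.2 h))
      rw [h3, one_pow]
    rw [mem_Lset_lens hp, toSS_v (h1 _ (hle z hz))]
    intro i hi
    rcases eq_or_lt_of_le hi with h4 | h4
    · have : i = k := Fin.ext h4.symm
      rw [this, ev_self, h2]
      simp
    · exact ev_gt k _ _ (Fin.lt_def.2 h4)
  · intro z hz z' hz' heq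
    have hz1 := hlt z hz
    have hz2 := hlt z' hz'
    simp only at heq
    rw [SS.lens_eq_iff hp, toSS_v (h1 _ hz1.le), toSS_v (h1 _ hz2.le)] at heq
    obtain ⟨c, hc, hcz⟩ := heq
    rw [← ev_smul] at hcz
    obtain ⟨hz3, hz4⟩ := ev_inj k hcz
    rw [mul_one, mul_one] at hz4
    have hs1 : 0 < Real.sqrt (1 - nsq fun i => z i) := Real.sqrt_pos.2 (by linarith)
    have hcn : ‖c‖ = 1 := by
      have := normSq_of_pow_eq hp (c := 1) (by simp) hc
      rw [Complex.normSq_eq_norm_sq] at this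
      nlinarith [norm_nonneg c]
    have hs2 : Real.sqrt (1 - nsq fun i => z' i) = Real.sqrt (1 - nsq fun i => z i) := by
      have := congrArg norm hz4
      rw [norm_mul, hcn, one_mul, Complex.norm_real, Complex.norm_real, Real.norm_eq_abs,
        Real.norm_eq_abs, abs_of_nonneg (Real.sqrt_nonneg _), abs_of_nonneg (Real.sqrt_nonneg _)]
        at this
      exact this
    have hc1 : c = 1 := by
      rw [hs2] at hz4
      have h5 : ((Real.sqrt (1 - nsq fun i => z i) : ℝ) : ℂ) ≠ 0 :=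
        Complex.ofReal_ne_zero.2 hs1.ne'
      have h6 : c * ((Real.sqrt (1 - nsq fun i => z i) : ℝ) : ℂ) =
        1 * ((Real.sqrt (1 - nsq fun i => z i) : ℝ) : ℂ) := by rw [one_mul, ← hz4]
      exact mul_right_cancel₀ h5 h6
    rw [hc1, one_smul] at hz3
    ext i
    exact (congrFun hz3 i).symm
  · intro z hz
    have hz1 := hlt z hz
    have hs1 : 0 < Real.sqrt (1 - nsq fun i => z i) := Real.sqrt_pos.2 (by linarith)
    constructor
    · rw [mem_Mset_lens hp, toSS_v (h1 _ hz1.le)]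
      refine ⟨fun i hi => ev_gt k _ _ hi, ?_⟩
      rw [ev_self, mul_one, ← Complex.ofReal_pow]
      exact ofReal_mem_NN (pow_nonneg hs1.le _)
    · rw [mem_Lset_lens hp, toSS_v (h1 _ hz1.le)]
      intro h
      have := h k le_rfl
      rw [ev_self, mul_one] at this
      exact hs1.ne' (Complex.ofReal_eq_zero.1 this)
  · intro y hy hyL
    have hk : pw y k ≠ 0 := by
      intro h
      apply hyL
      intro i hi
      rcases eq_or_lt_of_le hi with h4 | h4
      · have : i = k := Fin.ext h4.symm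
        rw [this, h]
      · exact hy.1 i (Fin.lt_def.2 h4)
    obtain ⟨z, hz, hz1, hz2⟩ := exists_normal hp hy.1 (c := 1) hk (by
      intro r hr hpr
      rw [mul_one, ← Complex.ofReal_pow, ← hpr]
      refine Complex.ext ?_ ?_
      · rw [Complex.ofReal_re]
        have h5 := hy.2
        rw [← Complex.re_eq_norm.mpr ?_]
        · rw [Complex.nonneg_iff]
          exact ⟨h5.2, h5.1.symm⟩
      · rw [Complex.ofReal_im]
        exact hy.2.1.symm) norm_one
    refine ⟨WithLp.toLp 2 z, ?_, ?_⟩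
    · rw [mem_ball_zero_iff, ← sq_lt_one_iff₀ (norm_nonneg _), ← nsq_toEuc]
      exact hz
    · rw [← hz2]
      congr 1
      exact toSS_of hz1

/-- the point on the unit circle with argument `2 π t / p` -/
def ec (p : ℕ) (t : ℝ) : ℂ := Complex.exp ((2 * Real.pi * t / p : ℝ) * Complex.I)

theorem norm_ec (p : ℕ) (t : ℝ) : ‖ec p t‖ = 1 := Complex.norm_exp_ofReal_mul_I _

theorem ec_pow (hp : p ≠ 0) (t : ℝ) :
    ec p t ^ p = Complex.exp ((2 * Real.pi * t : ℝ) * Complex.I) := by
  rw [ec, ← Complex.exp_nat_mul]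
  congr 1
  have : (p : ℂ) ≠ 0 := by exact_mod_cast hp
  push_cast
  field_simp

@[continuity, fun_prop]
theorem continuous_ec (p : ℕ) : Continuous (ec p) := by
  unfold ec
  fun_prop

theorem exp_mem_NN {t : ℝ} (h0 : 0 < t) (h1 : t < 1) {r : ℝ} (hr : 0 < r) :
    ((r : ℂ) * Complex.exp ((2 * Real.pi * t : ℝ) * Complex.I)) ∉ NN := by
  rintro ⟨him, hre⟩
  rw [Complex.exp_mul_I, ← Complex.ofReal_cos, ← Complex.ofReal_sin] at him hre
  simp only [Complex.mul_im, Complex.ofReal_re, Complex.ofReal_im, Complex.add_im,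
    Complex.I_re, Complex.I_im, mul_one, mul_zero, Complex.add_re, Complex.mul_re,
    zero_mul, add_zero, sub_zero, zero_add, sub_self] at him hre
  have hsin : Real.sin (2 * Real.pi * t) = 0 := by
    rcases mul_eq_zero.1 him with h | h
    · exact absurd h hr.ne'
    · exact h
  have hcos : 0 ≤ Real.cos (2 * Real.pi * t) := by
    by_contra hneg
    push Not at hneg
    nlinarith
  have hcos1 : Real.cos (2 * Real.pi * t) = 1 := by
    have := Real.sin_sq_add_cos_sq (2 * Real.pi * t)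
    rw [hsin] at this
    nlinarith
  obtain ⟨m, hm⟩ := (Real.cos_eq_one_iff _).1 hcos1
  have hpi := Real.pi_pos
  have h2 : (m : ℝ) = t := by
    have h3 : (m : ℝ) * (2 * Real.pi) = t * (2 * Real.pi) := by rw [hm]; ring
    exact mul_right_cancel₀ (by positivity) h3
  rw [← h2] at h0 h1
  have h3 : (0 : ℤ) < m := by exact_mod_cast h0
  have h4 : m < (1 : ℤ) := by exact_mod_cast h1
  omega

/-- polar coordinates with argument in `(0, 1)` -/
theorem exists_arg {w : ℂ} (hw : w ∉ NN) :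
    ∃ t : ℝ, 0 < t ∧ t < 1 ∧ w = (‖w‖ : ℂ) * Complex.exp ((2 * Real.pi * t : ℝ) * Complex.I) := by
  have hpi := Real.pi_pos
  have hw0 : w ≠ 0 := fun h => hw (h ▸ zero_mem_NN)
  have harg : Complex.arg w ≠ 0 := by
    intro h
    apply hw
    rw [Complex.arg_eq_zero_iff] at h
    exact ⟨h.2, h.1⟩
  have hexp := Complex.norm_mul_exp_arg_mul_I w
  rcases lt_or_gt_of_ne harg with hlt | hgt
  · refine ⟨Complex.arg w / (2 * Real.pi) + 1, ?_, ?_, ?_⟩
    · have h1 := Complex.neg_pi_lt_arg w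
      have h2 : -1 < Complex.arg w / (2 * Real.pi) := by
        rw [lt_div_iff₀ (by positivity)]; nlinarith
      linarith
    · have h2 : Complex.arg w / (2 * Real.pi) < 0 := div_neg_of_neg_of_pos hlt (by positivity)
      linarith
    · have h3 : ((2 * Real.pi * (Complex.arg w / (2 * Real.pi) + 1) : ℝ) : ℂ) * Complex.I =
          Complex.arg w * Complex.I + 2 * Real.pi * Complex.I := by
        have h4 : 2 * Real.pi * (Complex.arg w / (2 * Real.pi) + 1) =
          Complex.arg w + 2 * Real.pi := by field_simp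
        rw [h4]; push_cast; ring
      rw [h3, Complex.exp_add, Complex.exp_two_pi_mul_I, mul_one, hexp]
  · refine ⟨Complex.arg w / (2 * Real.pi), div_pos hgt (by positivity), ?_, ?_⟩
    · have h1 := Complex.arg_le_pi w
      rw [div_lt_one (by positivity)]
      linarith
    · have h4 : 2 * Real.pi * (Complex.arg w / (2 * Real.pi)) = Complex.arg w := by field_simp
      rw [h4, hexp]

theorem exp_inj {t t' : ℝ} (h0 : 0 < t) (h1 : t < 1) (h0' : 0 < t') (h1' : t' < 1)
    (h : Complex.exp ((2 * Real.pi * t : ℝ) * Complex.I) =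
      Complex.exp ((2 * Real.pi * t' : ℝ) * Complex.I)) : t = t' := by
  rw [Complex.exp_eq_exp_iff_exists_int] at h
  obtain ⟨m, hm⟩ := h
  have hpi := Real.pi_pos
  have h2 : t = t' + m := by
    have h3 : (((2 * Real.pi * t : ℝ) : ℂ)) = ((2 * Real.pi * (t' + m) : ℝ) : ℂ) := by
      have h4 : ((2 * Real.pi * t : ℝ) : ℂ) * Complex.I =
          ((2 * Real.pi * (t' + m) : ℝ) : ℂ) * Complex.I := by
        rw [hm]; push_cast; ring
      exact mul_right_cancel₀ Complex.I_ne_zero h4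
    have h5 := Complex.ofReal_injective h3
    exact mul_left_cancel₀ (by positivity) h5
  have h3 : (-1 : ℝ) < m := by linarith
  have h4 : (m : ℝ) < 1 := by linarith
  have h5 : (-1 : ℤ) < m := by exact_mod_cast h3
  have h6 : m < (1 : ℤ) := by exact_mod_cast h4
  have h7 : m = 0 := by omega
  rw [h2, h7]; simp

/-- The odd cell. -/
theorem cellStep_odd (hp : p ≠ 0) (k : Fin n) :
    CellStep (2 * k + 1) (Mset p n k) (Lset p n (k + 1)) := by
  have : NeZero n := ⟨by rintro rfl; exact k.elim0⟩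
  have hfr : Module.finrank ℝ (EuclideanSpace ℂ (Fin k) × ℝ) = 2 * k + 1 := by
    rw [Module.finrank_prod, finrank_real_of_complex, finrank_euclideanSpace, Fintype.card_fin,
      Module.finrank_self]
  have hle : ∀ z ∈ closedBall (0 : EuclideanSpace ℂ (Fin k)) 1, nsq (fun i => z i) ≤ 1 := by
    intro z hz
    rw [nsq_toEuc, sq_le_one_iff₀ (norm_nonneg _)]
    exact mem_closedBall_zero_iff.1 hz
  have hlt : ∀ z ∈ ball (0 : EuclideanSpace ℂ (Fin k)) 1, nsq (fun i => z i) < 1 := by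
    intro z hz
    rw [nsq_toEuc, sq_lt_one_iff₀ (norm_nonneg _)]
    exact mem_ball_zero_iff.1 hz
  have h1 : ∀ (z : Fin k → ℂ) (t : ℝ), nsq z ≤ 1 →
      nsq (ev k z ((Real.sqrt (1 - nsq z) : ℝ) * ec p t)) = 1 :=
    fun z t hz => nsq_ev_sqrt k hz (norm_ec p t)
  refine cellStep_of_body hfr (K := closedBall 0 1 ×ˢ Icc 0 1) (U := ball 0 1 ×ˢ Ioo 0 1)
    ((convex_closedBall _ _).prod (convex_Icc 0 1))
    ((isCompact_closedBall _ _).prod isCompact_Icc) ?_ ?_
    (Mset_subset_Lset k)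
    (fun q => (toSS (ev k (fun i => q.1 i)
      ((Real.sqrt (1 - nsq fun i => q.1 i) : ℝ) * ec p q.2))).lens p)
    ?_ ?_ ?_ ?_ ?_
  · rw [interior_prod_eq, interior_closedBall _ one_ne_zero, interior_Icc]
  · exact ⟨(0, 1 / 2), mem_ball_self one_pos, by norm_num, by norm_num⟩
  · refine (SS.continuous_lens p).comp_continuousOn (continuousOn_toSS.comp ?_ ?_)
    · refine Continuous.continuousOn ?_
      refine (continuous_ev k).comp ((continuous_toEuc.comp continuous_fst).prodMk ?_)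
      exact (Complex.continuous_ofReal.comp
        (continuous_sqrt_nsq.comp (continuous_toEuc.comp continuous_fst))).mul
          ((continuous_ec p).comp continuous_snd)
    · intro q hq
      exact h1 _ _ (hle q.1 hq.1)
  · rintro ⟨z, t⟩ ⟨hz, ht⟩ hU
    simp only at hz ht
    rw [mem_Mset_lens hp, toSS_v (h1 _ _ (hle z hz))]
    refine ⟨fun i hi => ev_gt k _ _ hi, ?_⟩
    rw [ev_self, mul_pow, ec_pow hp]
    by_cases hz' : z ∈ ball (0 : EuclideanSpace ℂ (Fin k)) 1
    · have ht' : t = 0 ∨ t = 1 := by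
        by_contra hcon
        push Not at hcon
        exact hU ⟨hz', lt_of_le_of_ne ht.1 (Ne.symm hcon.1), lt_of_le_of_ne ht.2 hcon.2⟩
      have hexp : Complex.exp ((2 * Real.pi * t : ℝ) * Complex.I) = 1 := by
        rcases ht' with rfl | rfl
        · simp
        · rw [mul_one]
          push_cast
          exact Complex.exp_two_pi_mul_I
      rw [hexp, mul_one, ← Complex.ofReal_pow]
      exact ofReal_mem_NN (pow_nonneg (Real.sqrt_nonneg _) _)
    · have h2 : nsq (fun i => z i) = 1 := by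
        rw [nsq_toEuc]
        have h3 : ‖z‖ = 1 := le_antisymm (mem_closedBall_zero_iff.1 hz)
          (not_lt.1 fun h => hz' (mem_ball_zero_iff.2 h))
        rw [h3, one_pow]
      rw [h2, sub_self, Real.sqrt_zero, Complex.ofReal_zero, zero_pow hp, zero_mul]
      exact zero_mem_NN
  · rintro ⟨z, t⟩ ⟨hz, ht⟩ ⟨z', t'⟩ ⟨hz', ht'⟩ heq
    have hz1 := hlt z hz
    have hz2 := hlt z' hz'
    simp only at heq ht ht'
    rw [SS.lens_eq_iff hp, toSS_v (h1 _ _ hz1.le), toSS_v (h1 _ _ hz2.le)] at heq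
    obtain ⟨c, hc, hcz⟩ := heq
    rw [← ev_smul] at hcz
    obtain ⟨hz3, hz4⟩ := ev_inj k hcz
    have hs1 : 0 < Real.sqrt (1 - nsq fun i => z i) := Real.sqrt_pos.2 (by linarith)
    have hcn : ‖c‖ = 1 := by
      have := normSq_of_pow_eq hp (c := 1) (by simp) hc
      rw [Complex.normSq_eq_norm_sq] at this
      nlinarith [norm_nonneg c]
    have hs2 : Real.sqrt (1 - nsq fun i => z' i) = Real.sqrt (1 - nsq fun i => z i) := by
      have := congrArg norm hz4
      rw [norm_mul, norm_mul, norm_mul, hcn, one_mul, norm_ec, norm_ec, mul_one, mul_one,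
        Complex.norm_real, Complex.norm_real, Real.norm_eq_abs,
        Real.norm_eq_abs, abs_of_nonneg (Real.sqrt_nonneg _), abs_of_nonneg (Real.sqrt_nonneg _)]
        at this
      exact this
    have h5 : ((Real.sqrt (1 - nsq fun i => z i) : ℝ) : ℂ) ≠ 0 :=
      Complex.ofReal_ne_zero.2 hs1.ne'
    have h6 : ec p t' = c * ec p t := by
      rw [hs2] at hz4
      apply mul_left_cancel₀ h5
      rw [hz4]; ring
    have ht2 : t = t' := by
      apply exp_inj ht.1 ht.2 ht'.1 ht'.2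
      rw [← ec_pow hp, ← ec_pow hp, h6, mul_pow, hc, one_mul]
    subst ht2
    have hc1 : c = 1 := by
      have h7 : ec p t ≠ 0 := by
        intro h
        have := norm_ec p t
        rw [h, norm_zero] at this
        exact zero_ne_one this
      have h8 : c * ec p t = 1 * ec p t := by rw [one_mul, ← h6]
      exact mul_right_cancel₀ h7 h8
    rw [hc1, one_smul] at hz3
    refine Prod.ext ?_ rfl
    ext i
    exact (congrFun hz3 i).symm
  · rintro ⟨z, t⟩ ⟨hz, ht⟩
    simp only at hz ht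
    have hz1 := hlt z hz
    have hs1 : 0 < Real.sqrt (1 - nsq fun i => z i) := Real.sqrt_pos.2 (by linarith)
    constructor
    · rw [mem_Lset_lens hp, toSS_v (h1 _ _ hz1.le)]
      intro i hi
      exact ev_gt k _ _ (Fin.lt_def.2 (Nat.lt_of_succ_le hi))
    · rw [mem_Mset_lens hp, toSS_v (h1 _ _ hz1.le)]
      rintro ⟨-, h⟩
      rw [ev_self, mul_pow, ec_pow hp, ← Complex.ofReal_pow] at h
      exact exp_mem_NN ht.1 ht.2 (pow_pos hs1 p) h
  · intro y hy hyM
    have hy1 : ∀ i, k < i → pw y i = 0 := fun i hi => hy i (Nat.succ_le_of_lt (Fin.lt_def.1 hi))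
    have hyN : pw y k ∉ NN := fun h => hyM ⟨hy1, h⟩
    have hk : pw y k ≠ 0 := fun h => hyN (h ▸ zero_mem_NN)
    obtain ⟨t, ht0, ht1, ht⟩ := exists_arg hyN
    obtain ⟨z, hz, hz1, hz2⟩ := exists_normal hp hy1 (c := ec p t) hk (by
      intro r hr hpr
      rw [mul_pow, ec_pow hp]
      conv_rhs => rw [ht]
      rw [hpr]
      push_cast
      ring) (norm_ec p t)
    refine ⟨(WithLp.toLp 2 z, t), ⟨?_, ht0, ht1⟩, ?_⟩
    · rw [mem_ball_zero_iff, ← sq_lt_one_iff₀ (norm_nonneg _), ← nsq_toEuc]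
      exact hz
    · rw [← hz2]
      congr 1
      exact toSS_of hz1

/-- the lens space of `ℂᵏ`, from the base point -/
theorem lensChain (hp : p ≠ 0) (hn : 0 < n) {k : ℕ} (hk : 1 ≤ k) (hkn : k ≤ n) :
    CellChain {a | 1 ≤ a ∧ a < 2 * k} (Mset p n ⟨0, hn⟩) (Lset p n k) := by
  induction k, hk using Nat.le_induction with
  | base =>
    exact CellChain.single (D := {a | 1 ≤ a ∧ a < 2 * 1}) ⟨le_rfl, by norm_num⟩
      (cellStep_odd hp (⟨0, hn⟩ : Fin n))
  | succ k hk ih =>
    have h1 := cellStep_even hp (⟨k, hkn⟩ : Fin n)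
    have h2 := cellStep_odd hp (⟨k, hkn⟩ : Fin n)
    refine CellChain.step ?_ (CellChain.step ?_ ((ih (by omega)).mono ?_) h1) h2
    · exact ⟨by dsimp only; omega, by dsimp only; omega⟩
    · exact ⟨by dsimp only; omega, by dsimp only; omega⟩
    · rintro a ⟨h3, h4⟩
      exact ⟨h3, by omega⟩

/-- the skeleton below the top cell -/
theorem lensChain' (hp : p ≠ 0) (hn : 0 < n) (k : Fin n) :
    CellChain {a | 1 ≤ a ∧ a ≤ 2 * (k : ℕ)} (Mset p n ⟨0, hn⟩) (Mset p n k) := by
  rcases Nat.eq_zero_or_pos (k : ℕ) with h0 | h0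
  · have : k = ⟨0, hn⟩ := Fin.ext h0
    rw [this]
    exact CellChain.refl _
  · refine CellChain.step ?_ ((lensChain hp hn h0 k.2.le).mono ?_) (cellStep_even hp k)
    · exact ⟨by omega, le_rfl⟩
    · rintro a ⟨h1, h2⟩
      exact ⟨h1, h2.le⟩

end Vale.Agent.P257.H104
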