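import Vale.Agent.P257.H104.Sector2
import Vale.Agent.P257.H104.GrCell
import Vale.Agent.P257.H104.HZ

/-!
# P257: the maps in `T`, existence of mod `p` Thom classes, and the key vanishing statement

For `C` with `u : 𝟙 ⟶ C`, `m : C ⊗ C ⟶ C` two-sided unital, `p • u = 0`, `π_j C = 0` for
`1 ≤ j ≤ 2n - 2`:
* `exists_theta` : the unit of the fibre extends to `θ : S (E W n) ⟶ S (ℂ^{JW}) ⊗ C`;
* `covT_comp_eq_zero` : every `D : S (E W n) ⟶ M ⊗ C` vanishing on the fibre vanishes on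
  `S(ℂⁿ) × ℂ^{JW}`.
-/

open Set Filter Topology OnePoint CategoryTheory MonoidalCategory Matrix Limits Pretriangulated
open Functor.LaxMonoidal Functor.OplaxMonoidal Functor.Monoidal
open Vale.Agent.P251 Vale.Agent.P251.G Vale.Agent.P251.G.Cell Vale.Agent.P251.G.LC
  Vale.Agent.P251.I Vale.Agent.P251.T Vale.Agent.P251.S Vale.Agent.P251.H Vale.Agent.P251.M

noncomputable section

set_option linter.unusedSectionVars false

universe v u

namespace Vale.Agent.P257.H104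

variable {p : ℕ} (hp : p ≠ 0) (hp2 : 2 ≤ p) {n : ℕ} (hn : 0 < n)
variable {W W' : Type} [Fintype W] [DecidableEq W] [Fintype W'] [DecidableEq W']

/-- the fibre in `FCat` -/
abbrev FibF (p : ℕ) (W : Type) [Fintype W] [DecidableEq W] : FCat :=
  ⟨Fib (Fin p) W, fc_fib W (Fin p)⟩

theorem fc_S (n : ℕ) : FC (LC.of (LF p hp n).S) := fc_of_hasChain (SS (Fin n))

/-- the sphere in `FCat` -/
abbrev SF (n : ℕ) : FCat := ⟨LC.of (LF p hp n).S, fc_S hp n⟩

/-- the covering in `FCat` -/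
def covRF (n : ℕ) (W : Type) [Fintype W] [DecidableEq W] : FibF p W ⊗ SF hp n ⟶ eF hp n W :=
  FCat.hom (covR (LF p hp n) W)

/-- the fibre inclusion in `FCat` -/
def fibF (W : Type) [Fintype W] [DecidableEq W] : FibF p W ⟶ eF hp n W :=
  FCat.hom (fib (LF p hp n) (ptF p hp hn) W)

/-- the base point -/
def ptFm : 𝟙_ FCat ⟶ SF hp n := FCat.hom (point (X := LC.of (LF p hp n).S) (ptF p hp hn))

/-- the projection of the sphere -/
def prFm (n : ℕ) : SF hp n ⟶ 𝟙_ FCat :=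
  FCat.hom (ofCompact (X := LC.of (LF p hp n).S) (Y := LC.of Unit) (fun _ => ())
    continuous_const)

theorem pt_pr : ptFm hp hn ≫ prFm hp n = 𝟙 _ := by
  ext1
  apply hom_ext
  rintro ⟨⟩
  rfl

theorem fibF_eq : fibF hp hn W =
    (ρ_ (FibF p W)).inv ≫ (FibF p W ◁ ptFm hp hn) ≫ covRF hp n W := by
  ext1
  exact fib_eq_covR _ _

section T

variable {T : Type u} [Category.{v} T] [Preadditive T] [HasZeroObject T]
    [HasShift T ℤ] [∀ n : ℤ, (shiftFunctor T n).Additive] [Pretriangulated T]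
    [MonoidalCategory T] [SymmetricCategory T] [TensorTriangulated T] (F : SpaceFunctor T)

/-- the suspension spectrum of the fibre -/
abbrev XT (p : ℕ) (W : Type) [Fintype W] [DecidableEq W] : T := F.S.obj (FibF p W)

/-- the suspension spectrum of the sphere -/
abbrev YT (n : ℕ) : T := F.S.obj (SF hp n)

/-- the suspension spectrum of the total space -/
abbrev ET (n : ℕ) (W : Type) [Fintype W] [DecidableEq W] : T := F.S.obj (eF hp n W)

/-- the covering -/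
def covT (n : ℕ) (W : Type) [Fintype W] [DecidableEq W] : XT F p W ⊗ YT hp F n ⟶ ET hp F n W :=
  μ F.S _ _ ≫ F.S.map (covRF hp n W)

/-- the base point -/
def ptT : 𝟙_ T ⟶ YT hp F n := ε F.S ≫ F.S.map (ptFm hp hn)

/-- the projection -/
def prT (n : ℕ) : YT hp F n ⟶ 𝟙_ T := F.S.map (prFm hp n) ≫ η F.S

@[reassoc]
theorem ptT_prT : ptT hp hn F ≫ prT hp F n = 𝟙 _ := by
  rw [ptT, prT, Category.assoc, ← Functor.map_comp_assoc, pt_pr, CategoryTheory.Functor.map_id,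
    Category.id_comp, ε_η]

/-- the fibre -/
def fibT (W : Type) [Fintype W] [DecidableEq W] : XT F p W ⟶ ET hp F n W :=
  F.S.map (fibF hp hn W)

theorem fibT_eq : fibT hp hn F W =
    (ρ_ (XT F p W)).inv ≫ (XT F p W ◁ ptT hp hn F) ≫ covT hp F n W := by
  rw [fibT, fibF_eq, Functor.map_comp, Functor.map_comp, ← right_unitality_inv, ptT, covT,
    MonoidalCategory.whiskerLeft_comp]
  simp only [Category.assoc]
  rw [μ_natural_right_assoc]

theorem pt_covT : (XT F p W ◁ ptT hp hn F) ≫ covT hp F n W =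
    (ρ_ (XT F p W)).hom ≫ fibT hp hn F W := by
  rw [fibT_eq, Iso.hom_inv_id_assoc]

/-- the fibre is a sphere -/
def eX (p : ℕ) (W : Type) [Fintype W] [DecidableEq W] :
    XT F p W ≅ (𝟙_ T)⟦((2 * (Fintype.card W * p) : ℕ) : ℤ)⟧ := by
  refine (nonempty_sphIso F (X := FibF p W) (exists_sphHomeo (E := Fin p → W → ℂ) ?_)).some
  rw [Module.finrank_pi_fintype]
  simp only [Module.finrank_pi_fintype, Complex.finrank_real_complex, Finset.sum_const,
    Finset.card_univ, Fintype.card_fin, smul_eq_mul]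
  ring

instance isInv_XT : IsInv (XT F p W) := IsInv.of_iso (eX F p W).symm

section act

variable {C : T} (u : 𝟙_ T ⟶ C) (m : C ⊗ C ⟶ C)

/-- the unit -/
def uT (X : T) : X ⟶ X ⊗ C := (ρ_ X).inv ≫ X ◁ u

@[reassoc]
theorem uT_nat {X Y : T} (f : X ⟶ Y) : f ≫ uT u Y = uT u X ≫ f ▷ C := by
  rw [uT, uT, Category.assoc, whisker_exchange, rightUnitor_inv_naturality_assoc]

/-- the extension of a map to a free module -/
def actT {A M : T} (D : A ⟶ M ⊗ C) : A ⊗ C ⟶ M ⊗ C := D ▷ C ≫ (α_ M C C).hom ≫ M ◁ m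

variable {m} in
@[reassoc]
theorem uT_actT (hmr : C ◁ u ≫ m = (ρ_ C).hom) {A M : T} (D : A ⟶ M ⊗ C) :
    uT u A ≫ actT m D = D := by
  rw [actT, ← reassoc_of% (uT_nat u D), uT, Category.assoc, associator_naturality_right_assoc,
    ← MonoidalCategory.whiskerLeft_comp, hmr]
  simp

@[reassoc]
theorem comp_actT {A B M : T} (f : A ⟶ B) (D : B ⟶ M ⊗ C) :
    f ▷ C ≫ actT m D = actT m (f ≫ D) := by
  rw [actT, actT, comp_whiskerRight_assoc]

theorem actT_zero {A M : T} : actT m (0 : A ⟶ M ⊗ C) = 0 := by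
  rw [actT, MonoidalPreadditive.zero_whiskerRight, zero_comp]

theorem uT_smul {p : ℕ} (hpu : p • u = 0) (X : T) : p • uT u X = 0 := by
  rw [uT, ← Preadditive.comp_nsmul]
  have : p • (X ◁ u) = X ◁ (p • u) := ((tensorLeft X).map_nsmul).symm
  rw [this, hpu, MonoidalPreadditive.whiskerLeft_zero, comp_zero]

end act

section key

variable [IsTriangulated T] {C : T} (u : 𝟙_ T ⟶ C) (m : C ⊗ C ⟶ C)

/-- the inclusion of the low part in `FCat` -/
def lowF (W : Type) [Fintype W] [DecidableEq W] :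
    (⟨ELow p hp hn W, fc_eLow p hp W hn⟩ : FCat) ⟶ eF hp n W := FCat.hom (lowHom p hp hn W)

/-- the inclusion of the fibre in the low part in `FCat` -/
def fibLowF (W : Type) [Fintype W] [DecidableEq W] :
    FibF p W ⟶ (⟨ELow p hp hn W, fc_eLow p hp W hn⟩ : FCat) := FCat.hom (fibLow p hp W hn)

theorem fibLowF_lowF : fibLowF hp hn W ≫ lowF hp hn W = fibF hp hn W := by
  ext1
  exact fibLow_lowHom p hp W hn

/-- the collapse to the cell in `FCat` -/
def collF (W : Type) [Fintype W] [DecidableEq W] : eF hp n W ⟶ cellF hp hp2 hn W :=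
  FCat.hom (collTop hp hp2 hn W)

theorem map_covRF_collF : F.S.map (covRF hp n W ≫ collF hp hp2 hn W) =
    p • F.S.map ((β_ (FibF p W) (SF hp n)).hom ≫ FCat.hom (coll₀ hp hp2 hn W)) := by
  have h1 : covRF hp n W ≫ collF hp hp2 hn W = (β_ (FibF p W) (SF hp n)).hom ≫
      (FCat.hom (cov (LF p hp n) W ≫ collTop hp hp2 hn W) : covF hp n W ⟶ cellF hp hp2 hn W) := by
    ext1
    change covR (LF p hp n) W ≫ collTop hp hp2 hn W = _
    rw [covR, Category.assoc]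
    rfl
  rw [h1, Functor.map_comp, Functor.map_comp, ← Preadditive.comp_nsmul]
  congr 1
  exact map_cov_collTop hp hp2 F hn W

/-- `coll` followed by the identification with the strict cofibre -/
theorem exists_topTriangle (W : Type) [Fintype W] [DecidableEq W] :
    ∃ (Z : T) (g : ET hp F n W ⟶ Z) (h : Z ⟶ _) (e : F.S.obj (cellF hp hp2 hn W) ⟶ Z),
      Dist (F.S.map (lowF hp hn W)) g h ∧ g = F.S.map (collF hp hp2 hn W) ≫ e := by
  obtain ⟨h, D⟩ := exists_cofTriangle F (lowF hp hn W) (cofib_lowHom p hp W hn)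
  refine ⟨_, _, h, F.S.map (FCat.hom (cofLow hp hp2 hn W).hom), D, ?_⟩
  rw [← Functor.map_comp]
  congr 1
  ext1
  exact (collTop_cofLow hp hp2 hn W).symm

include hp2 in
theorem key_lift (hpu : p • u = 0)
    (hC : ∀ j : ℤ, 1 ≤ j → j ≤ 2 * (n : ℤ) - 2 → HZ ((𝟙_ T)⟦j⟧) C)
    {Q : T} (eQ : Q ≅ (𝟙_ T)⟦2 * (n : ℤ) - 1⟧) (s : Q ⟶ YT hp F n) :
    ∃ y : XT F p W ⊗ Q ⟶ XT F p W ⊗ C,
      (XT F p W ◁ s) ≫ covT hp F n W ≫ uT u _ = y ≫ fibT hp hn F W ▷ C := by
  obtain ⟨Z, g, h, e, D, hg⟩ := exists_topTriangle hp hp2 hn F W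
  have h1 : ((XT F p W ◁ s) ≫ covT hp F n W ≫ uT u _) ≫ g ▷ C = 0 := by
    rw [Category.assoc, Category.assoc, ← uT_nat, hg, covT]
    simp only [Category.assoc]
    rw [← Functor.map_comp_assoc, map_covRF_collF, Preadditive.nsmul_comp,
      Preadditive.comp_nsmul, Preadditive.comp_nsmul, ← Category.assoc, ← Category.assoc,
      ← Preadditive.comp_nsmul, ← Preadditive.comp_nsmul, uT_smul u hpu, comp_zero, comp_zero]
  obtain ⟨y₁, hy₁⟩ := lift_right D C _ h1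
  have h2 : CofIn (fun Z => HZ (XT F p W ⊗ Q) (C ⊗ Z)) (F.S.map (fibLowF hp hn W)) := by
    refine cofIn_lift F (sphTensorIso (eX F p W) eQ rfl) (D := {a |
      2 * (Fintype.card W * p) + 1 ≤ a ∧ a ≤ 2 * (Fintype.card W * p) + 2 * (n - 1)}) ?_ _
      (relCell_fibLow p hp W hn)
    rintro d ⟨hd1, hd2⟩
    refine ⟨((2 * (Fintype.card W * p) : ℕ) : ℤ) + (2 * (n : ℤ) - 1) - d, hC _ ?_ ?_, by ring⟩
    · omega
    · omega
  obtain ⟨y, hy⟩ := lift_of_cofIn C _ h2 y₁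
  refine ⟨y, ?_⟩
  rw [← hy₁, ← hy, Category.assoc, ← comp_whiskerRight, ← Functor.map_comp, fibLowF_lowF]
  rfl

include hp2 in
/-- **The key vanishing statement** on the sphere part. -/
theorem s_covT_comp_eq_zero (hmr : C ◁ u ≫ m = (ρ_ C).hom) (hpu : p • u = 0)
    (hC : ∀ j : ℤ, 1 ≤ j → j ≤ 2 * (n : ℤ) - 2 → HZ ((𝟙_ T)⟦j⟧) C)
    {Q : T} (eQ : Q ≅ (𝟙_ T)⟦2 * (n : ℤ) - 1⟧) (s : Q ⟶ YT hp F n)
    {M : T} (D : ET hp F n W ⟶ M ⊗ C) (hD : fibT hp hn F W ≫ D = 0) :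
    (XT F p W ◁ s) ≫ covT hp F n W ≫ D = 0 := by
  obtain ⟨y, hy⟩ := key_lift hp hp2 hn F (W := W) u hpu hC eQ s
  rw [← uT_actT u hmr D, reassoc_of% hy, comp_actT, hD, actT_zero, comp_zero]

/-- **Existence of Thom classes mod `p`.** -/
theorem exists_theta (hn : 0 < n)
    (hC : ∀ j : ℤ, 1 ≤ j → j ≤ 2 * (n : ℤ) - 3 → HZ ((𝟙_ T)⟦j⟧) C) (x : XT F p W ⟶ XT F p W ⊗ C) :
    ∃ θ : F.S.obj (⟨(vGr p (Fin n) W).tot, fc_vGr p W n⟩ : FCat) ⟶ XT F p W ⊗ C,
      F.S.map (FCat.hom (fibGr p hp W (ptF p hp hn))) ≫ θ = x := by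
  refine ext_of_cofIn ?_ x
  refine cofIn_ext F (tensorCIso (eX F p W) C) (D := {a |
    ∃ i, 1 ≤ i ∧ i < n ∧ a = 2 * i + 2 * (Fintype.card W * p)}) ?_ _ (relCell_fibGr p hp W hn)
  rintro d ⟨i, hi1, hi2, rfl⟩
  refine ⟨2 * (i : ℤ) - 1, hC _ ?_ ?_, ?_⟩
  · omega
  · omega
  · push_cast; ring

end key

end T

end Vale.Agent.P257.H104
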