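import Vale.Agent.P251.G.PowerProps
import Vale.Agent.P251.G.LensLC

/-!
# P257: the fibrewise power of a map

For a family of frames `F : Frames B κ J` and a morphism `f : ℂ^W ⟶ ℂ^W'` of `LC` we construct
`powE F f : E(W ⊗ ρ) ⟶ E(W' ⊗ ρ)` with `cov ≫ powE F f = (S ◁ powHom J f) ≫ cov`, where
`cov F W : S × (J → ℂ^W) ⟶ E(W ⊗ ρ)` is the proper surjection `F.q`.
-/

open CategoryTheory MonoidalCategory Matrix Filter Topology OnePoint
open Vale.Agent.P251.G

noncomputable section

namespace Vale.Agent.P257.H104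

variable {B : Type} [TopologicalSpace B] [CompactSpace B] [T2Space B]
variable {κ J W W' W'' : Type} [Fintype κ] [Fintype J] [Fintype W] [Fintype W'] [Fintype W'']
  [DecidableEq J] [DecidableEq W] [DecidableEq W'] [DecidableEq W'']

variable (F : Frames B κ J)

/-- the fibre `ℂ^{J × W}` -/
abbrev Fib (J W : Type) [Finite J] [Finite W] : LC := LC.of (J → W → ℂ)

/-- the covering `S × (J → ℂ^W) ⟶ E(W ⊗ ρ)` -/
def cov (W : Type) [Fintype W] [DecidableEq W] :
    LC.of F.S ⊗ Fib J W ⟶ (F.ρW W).tot :=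
  LC.ofIsProper (X := LC.of (F.S × (J → W → ℂ))) (Y := (F.ρW W).tot) F.q F.isProperMap_q

@[simp] theorem app_cov_coe (a : F.S × (J → W → ℂ)) :
    LC.app (cov F W) (a : OnePoint (F.S × (J → W → ℂ))) = (F.q a : OnePoint (F.ρW W).E) := rfl

theorem cov_cancel {Z : LC} {f g : (F.ρW W).tot ⟶ Z} (h : cov F W ≫ f = cov F W ≫ g) : f = g :=
  LC.cancel_proper_surj (A' := LC.of (F.S × (J → W → ℂ))) (A := (F.ρW W).tot)
    F.isProperMap_q F.surjective_q h

/-- permuting a frame and the vectors -/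
theorem q_perm {e e' : F.S} (h : F.π e = F.π e') {σ : Equiv.Perm J}
    (hσ : F.Φ e' = (F.Φ e).submatrix id σ) (w : J → W → ℂ) :
    F.q (e', fun j => w (σ j)) = F.q (e, w) := by
  refine Bun.E_ext h.symm ?_
  rw [Frames.vec_q, Frames.vec_q]
  simp only
  rw [hσ]
  exact powVec_perm (F.Φ e) w σ

/-- two points of `S × (J → ℂ^W)` with the same image differ by a permutation -/
theorem exists_perm_of_q_eq {a a' : F.S × (J → W → ℂ)} (h : F.q a = F.q a') :
    ∃ σ : Equiv.Perm J, F.Φ a'.1 = (F.Φ a.1).submatrix id σ ∧ a'.2 = fun j => a.2 (σ j) := by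
  have h1 : F.π a.1 = F.π a'.1 := congrArg Bun.base h
  obtain ⟨σ, hσ⟩ := F.perm a.1 a'.1 h1
  refine ⟨σ, hσ, ?_⟩
  have h2 : powVec (F.Φ a.1) a.2 = powVec (F.Φ a'.1) a'.2 := congrArg Bun.vec h
  have h3 := congrArg (coordVec (F.Φ a'.1)) h2
  rw [coordVec_powVec (F.isom a'.1), hσ] at h3
  funext j
  rw [← h3, coordVec_perm, coordVec_powVec (F.isom a.1)]

section powE

variable [Nonempty J]

variable (f : LC.of (W → ℂ) ⟶ LC.of (W' → ℂ))

/-- the underlying function of the fibrewise power -/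
def powEFun (e : (F.ρW W).E) : OnePoint (F.ρW W').E :=
  OnePoint.map (fun w => F.q (F.lift (Bun.base e), w))
    (LC.app (LC.powHom J f) (coordVec (F.Φ (F.lift (Bun.base e))) (Bun.vec e) :
      OnePoint (J → W → ℂ)))

theorem powEFun_q (a : F.S × (J → W → ℂ)) :
    powEFun F f (F.q a) =
      OnePoint.map (fun w => F.q (a.1, w)) (LC.app (LC.powHom J f) (a.2 : OnePoint _)) := by
  obtain ⟨e, w⟩ := a
  unfold powEFun
  simp only [Frames.base_q, Frames.vec_q]
  obtain ⟨σ, hσ⟩ := F.perm e (F.lift (F.π e)) (F.π_lift _).symm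
  have h1 : coordVec (F.Φ (F.lift (F.π e))) (powVec (F.Φ e) w) = fun j => w (σ j) := by
    funext j
    rw [hσ, coordVec_perm, coordVec_powVec (F.isom e)]
  rw [h1, LC.app_powHom_coe, LC.app_powHom_coe]
  rw [Frames.smash_perm σ fun j => LC.app f (w j : OnePoint (W → ℂ))]
  generalize (OP.smash fun j => LC.app f (w j : OnePoint (W → ℂ))) = z
  induction z using OnePoint.rec with
  | infty => rfl
  | coe z =>
    exact congrArg _ (q_perm F (F.π_lift _).symm hσ z)

theorem app_whisker_powHom (e : F.S) (w : J → W → ℂ) :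
    LC.app ((LC.of F.S ◁ LC.powHom J f) ≫ cov F W') ((e, w) : F.S × (J → W → ℂ)) =
      OnePoint.map (fun w => F.q (e, w)) (LC.app (LC.powHom J f) (w : OnePoint _)) := by
  rw [LC.app_comp]
  have h2 := LC.app_whiskerLeft_smash (LC.of F.S) (LC.powHom J f) (e : OnePoint F.S)
    (w : OnePoint (J → W → ℂ))
  have h1 : (((e, w) : F.S × (J → W → ℂ)) : OnePoint (F.S × (J → W → ℂ))) =
      LC.smash (e : OnePoint F.S) (w : OnePoint (J → W → ℂ)) := rfl
  rw [h1, h2]
  generalize LC.app (LC.powHom J f) (w : OnePoint (J → W → ℂ)) = z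
  induction z using OnePoint.rec with
  | infty => rfl
  | coe z => rfl

/-- **The fibrewise power.** -/
def powE : (F.ρW W).tot ⟶ (F.ρW W').tot :=
  LC.descend (A' := LC.of (F.S × (J → W → ℂ))) (A := (F.ρW W).tot) F.q F.isProperMap_q
    F.surjective_q ((LC.of F.S ◁ LC.powHom J f) ≫ cov F W') (powEFun F f)
    (fun a => by rw [powEFun_q, app_whisker_powHom])

@[reassoc]
theorem cov_powE : cov F W ≫ powE F f = (LC.of F.S ◁ LC.powHom J f) ≫ cov F W' :=
  LC.ofIsProper_comp_descend (A' := LC.of (F.S × (J → W → ℂ))) (A := (F.ρW W).tot) F.q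
    F.isProperMap_q F.surjective_q ((LC.of F.S ◁ LC.powHom J f) ≫ cov F W') (powEFun F f) _

end powE

/-- the fibre over (the image of) a point of `S` -/
def fib (e : F.S) (W : Type) [Fintype W] [DecidableEq W] : Fib J W ⟶ (F.ρW W).tot :=
  Bun.ptHom e (Fib J W) ≫ cov F W

end Vale.Agent.P257.H104
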