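import Vale.Agent.P251.G.CellThom
import Vale.Agent.P251.G.CellInst
import Vale.Agent.P251.G.Segre
import Vale.Agent.P251.G.NDR
import Vale.Agent.P251.G.ZeroSec
import Vale.Agent.P251.G.LensFrames
import Vale.Agent.P257.H104.PowE
import Vale.Agent.P257.H104.LensCell

/-!
# P257: the part of the total space over a closed subset of the base

* `overLC V B hB`, `overHom`: the closed subspace of `V.E` over the closed subset `B`;
* `relCell_over`: cells of `fib : ℂ^{J × W} ⟶ E(W ⊗ ρ)|_{Mset k}` for the lens space.
-/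

open Set Filter Topology OnePoint CategoryTheory MonoidalCategory Matrix
open Vale.Agent.P251.G Vale.Agent.P251.G.Cell Vale.Agent.P251.G.LC

noncomputable section

set_option linter.unusedSectionVars false

namespace Vale.Agent.P257.H104

section thomStep

variable {ι : Type} [Fintype ι] {Y : Type} [TopologicalSpace Y]

/-- One cell of the Thom space of a bundle of rank `r`. -/
theorem thomStep [DecidableEq ι] [T2Space Y] (V : Bun Y ι) {r : ℕ} (hr : V.IsRank r)
    {a : ℕ} {B C : Set Y} (h : CellStep a B C) :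
    CellStep (a + 2 * r) (overSet V B) (overSet V C) := by
  rw [← thomPt_image, ← thomPt_image]
  refine h.discBundle V.P V.cont.continuousOn (fun y _ => V.idem y) (fun y _ => hr y)
    (thomPt V) ((continuousOn_thomPt V).mono (discB_mono _ (subset_univ _))) ?_
    ((thomPt_injOn V).mono (odiscB_mono _ (subset_univ _))) ?_
  · rintro ⟨y, v⟩ ⟨_, _, hn⟩
    exact thomPt_of_le V (q := (y, v)) hn.ge
  · rintro ⟨y, v⟩ ⟨_, _, hn⟩
    rw [thomPt_of_lt V (q := (y, v)) hn]
    exact fun h => OnePoint.coe_ne_infty _ (mem_singleton_iff.1 h)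

end thomStep

section overSec

variable {ι : Type} [Fintype ι] {Y : Type} [TopologicalSpace Y] [LocallyCompactSpace Y]
  [T2Space Y] (V : Bun Y ι) (B : Set Y)

/-- the total space over `B` -/
def OverE : Type := {p : V.E // Bun.base p ∈ B}

instance : TopologicalSpace (OverE V B) := inferInstanceAs (TopologicalSpace (Subtype _))
instance : T2Space (OverE V B) := inferInstanceAs (T2Space (Subtype _))

variable {B}

omit [LocallyCompactSpace Y] [T2Space Y] in
theorem isClosedEmbedding_over (hB : IsClosed B) :
    IsClosedEmbedding (Subtype.val : OverE V B → V.E) :=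
  (hB.preimage Bun.continuous_base).isClosedEmbedding_subtypeVal

/-- the total space over `B` -/
def overLC (hB : IsClosed B) : LC :=
  haveI : LocallyCompactSpace (OverE V B) := (isClosedEmbedding_over V hB).locallyCompactSpace
  LC.of (OverE V B)

/-- the inclusion of the part over `B` -/
def overHom (hB : IsClosed B) : overLC V hB ⟶ V.tot :=
  ofClosed (X := overLC V hB) (Y := V.tot) (Subtype.val : OverE V B → V.E)
    (isClosedEmbedding_over V hB)

theorem injective_overHom (hB : IsClosed B) : Function.Injective (app (overHom V hB)) :=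
  app_injective_ofClosed (X := overLC V hB) (Y := V.tot) (isClosedEmbedding_over V hB)

theorem range_overHom (hB : IsClosed B) : range (app (overHom V hB)) = overSet V B := by
  ext x
  constructor
  · rintro ⟨y, rfl⟩
    induction y using OnePoint.rec with
    | infty => exact Or.inl (app_infty _)
    | coe y => exact Or.inr ⟨y.1, y.2, rfl⟩
  · rintro (hx | ⟨e, he, rfl⟩)
    · rw [mem_singleton_iff] at hx
      subst hx
      exact ⟨∞, app_infty _⟩
    · exact ⟨OnePoint.some (X := OverE V B) ⟨e, he⟩, rfl⟩

/-- A relative cell structure over a pair of closed subsets. -/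
theorem relCell_overHom (hB : IsClosed B) {D : Set ℕ}
    (h : CellChain D (overSet V B) univ) : RelCell D (overHom V hB) := by
  rw [← range_overHom V hB] at h
  exact relCell_of_chain _ (injective_overHom V hB) h

theorem exists_over_lift (hB : IsClosed B) {A : LC} (i : A ⟶ V.tot)
    (hi : range (app i) ⊆ overSet V B) : ∃ k : A ⟶ overLC V hB, k ≫ overHom V hB = i := by
  refine exists_lift_of_injective (overHom V hB) (injective_overHom V hB) i fun x => ?_
  rw [range_overHom]
  exact hi ⟨_, rfl⟩

theorem relCell_over_lift {C : Set Y} (hC : IsClosed C) {A : LC} (i : A ⟶ V.tot)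
    (hi : Function.Injective (app i)) (hiB : range (app i) = overSet V B)
    (k : A ⟶ overLC V hC) (hk : k ≫ overHom V hC = i) {D : Set ℕ}
    (h : CellChain D (overSet V B) (overSet V C)) : RelCell D k := by
  have hk' : ∀ x, app (overHom V hC) (app k x) = app i x := fun x => by rw [← hk, app_comp]
  refine relCell_of_chain_aux h k (app (overHom V hC)) (continuous_app _)
    (injective_overHom V hC) ?_ ?_ (range_overHom V hC)
  · intro x y hxy
    apply hi
    rw [← hk', ← hk', hxy]
  · rw [← hiB]
    exact congrArg range (funext hk')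

end overSec

section frames

variable {B : Type} [TopologicalSpace B] [CompactSpace B] [T2Space B]
variable {κ J W : Type} [Fintype κ] [Fintype J] [Fintype W] [DecidableEq J] [DecidableEq W]
variable (F : Frames B κ J)

theorem ρ_isRank : F.ρ.IsRank (Fintype.card J) := by
  intro b
  obtain ⟨e, rfl⟩ := F.surj b
  rw [F.ρ_P_π, Matrix.trace_mul_comm, F.isom, Matrix.trace_one]

theorem ρW_isRank [DecidableEq κ] : (F.ρW W).IsRank (Fintype.card W * Fintype.card J) :=
  Bun.IsRank.tensor (Bun.isRank_triv) (ρ_isRank F)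

theorem app_fib_coe (e : F.S) (w : J → W → ℂ) :
    app (fib F e W) (w : OnePoint (J → W → ℂ)) = (F.q (e, w) : OnePoint (F.ρW W).E) := rfl

theorem injective_fib (e : F.S) : Function.Injective (app (fib F e W)) := by
  intro x y h
  induction x using OnePoint.rec with
  | infty =>
    induction y using OnePoint.rec with
    | infty => rfl
    | coe y =>
      rw [app_infty, app_fib_coe] at h
      exact absurd h (OnePoint.infty_ne_coe _)
  | coe x =>
    induction y using OnePoint.rec with
    | infty =>
      rw [app_infty, app_fib_coe] at h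
      exact absurd h (OnePoint.coe_ne_infty _)
    | coe y =>
      rw [app_fib_coe, app_fib_coe] at h
      have h1 := congrArg Bun.vec (OnePoint.coe_injective h)
      rw [Frames.vec_q, Frames.vec_q] at h1
      have h2 := congrArg (coordVec (F.Φ e)) h1
      simp only at h2
      rw [coordVec_powVec (F.isom e), coordVec_powVec (F.isom e)] at h2
      rw [h2]

theorem range_fib (e : F.S) : range (app (fib F e W)) = overSet (F.ρW W) {F.π e} := by
  ext x
  constructor
  · rintro ⟨y, rfl⟩
    induction y using OnePoint.rec with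
    | infty => exact Or.inl (app_infty _)
    | coe y => exact Or.inr ⟨F.q (e, y), rfl, rfl⟩
  · rintro (hx | ⟨p, hp, rfl⟩)
    · rw [mem_singleton_iff] at hx
      subst hx
      exact ⟨∞, app_infty _⟩
    · obtain ⟨a, rfl⟩ := F.surjective_q p
      have hp' : F.π a.1 = F.π e := hp
      obtain ⟨σ, hσ⟩ := F.perm a.1 e hp'
      refine ⟨((fun j => a.2 (σ j) : J → W → ℂ) : OnePoint (J → W → ℂ)), ?_⟩
      rw [app_fib_coe]
      congr 1
      exact q_perm F hp' hσ a.2

end frames

section lens

variable (p : ℕ) (hp : p ≠ 0) (n : ℕ)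

/-- the frames over the lens space of dimension `2n - 1` -/
abbrev LF : Frames (Lens p (Fin n)) (RhoIdx p (Fin n)) (Fin p) := lensFrames p hp (Fin n)

/-- the base point of the sphere -/
def pt₀ (hn : 0 < n) : SS (Fin n) :=
  mkSS (ev ⟨0, hn⟩ 0 1) (by rw [nsq_ev, nsq_zero]; simp)

include hp in
theorem Mset_zero {n : ℕ} (hn : 0 < n) : Mset p n ⟨0, hn⟩ = {(pt₀ n hn).lens p} := by
  ext y
  rw [mem_singleton_iff]
  constructor
  · intro hy
    obtain ⟨x, rfl⟩ := SS.lens_surjective hp y
    rw [mem_Mset_lens hp] at hy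
    have h1 : x.v = ev ⟨0, hn⟩ 0 (x.v ⟨0, hn⟩) := by
      conv_lhs => rw [← ev_eq_of ⟨0, hn⟩ x.v hy.1]
      congr 1
      funext i
      exact i.elim0
    have h2 : Complex.normSq (x.v ⟨0, hn⟩) = 1 := by
      have := x.nsq_v
      rw [h1, nsq_ev, nsq_zero, zero_add] at this
      exact this
    have h3 : x.v ⟨0, hn⟩ ^ p = 1 := by
      have h4 : Complex.normSq (x.v ⟨0, hn⟩ ^ p) = 1 := by rw [map_pow, h2, one_pow]
      have h5 := hy.2
      refine Complex.ext ?_ h5.1
      rw [Complex.normSq_apply, h5.1, mul_zero, add_zero] at h4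
      have h6 := h5.2
      rw [Complex.one_re]
      nlinarith
    symm
    rw [SS.lens_eq_iff hp]
    refine ⟨x.v ⟨0, hn⟩, h3, ?_⟩
    rw [h1, pt₀, mkSS_v, ← ev_smul, smul_zero, mul_one, ev_self]
  · rintro rfl
    rw [mem_Mset_lens hp]
    refine ⟨fun i hi => ev_gt ⟨0, hn⟩ 0 1 hi, ?_⟩
    rw [pt₀, mkSS_v, ev_self, one_pow]
    exact ofReal_mem_NN zero_le_one

variable {n}

/-- the base point of the sphere -/
def ptF (hn : 0 < n) : (LF p hp n).S := pt₀ n hn

theorem π_ptF (hn : 0 < n) : (LF p hp n).π (ptF p hp hn) = (pt₀ n hn).lens p := rfl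

/-- the last index -/
abbrev lastF (hn : 0 < n) : Fin n := ⟨n - 1, by omega⟩

/-- the part of `E(W ⊗ ρ)` below the top cell -/
abbrev ELow (hn : 0 < n) (W : Type) [Fintype W] [DecidableEq W] : LC :=
  overLC ((LF p hp n).ρW W) (isClosed_Mset (p := p) (lastF hn))

/-- the inclusion of `ELow` -/
abbrev lowHom (hn : 0 < n) (W : Type) [Fintype W] [DecidableEq W] :
    ELow p hp hn W ⟶ ((LF p hp n).ρW W).tot :=
  overHom _ (isClosed_Mset (p := p) (lastF hn))

variable (W : Type) [Fintype W] [DecidableEq W]

theorem exists_fibLow (hn : 0 < n) :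
    ∃ k : Fib (Fin p) W ⟶ ELow p hp hn W, k ≫ lowHom p hp hn W = fib (LF p hp n) (ptF p hp hn) W := by
  refine exists_over_lift _ _ _ ?_
  rw [range_fib]
  have h1 : ({(LF p hp n).π (ptF p hp hn)} : Set (Lens p (Fin n))) ⊆ Mset p n (lastF hn) := by
    have := (lensChain' hp hn (lastF hn)).subset
    rwa [Mset_zero p hp hn] at this
  rintro x (hx | ⟨q, hq, rfl⟩)
  · exact Or.inl hx
  · exact Or.inr ⟨q, h1 hq, rfl⟩

/-- the inclusion of the fibre in `ELow` -/
def fibLow (hn : 0 < n) : Fib (Fin p) W ⟶ ELow p hp hn W := (exists_fibLow p hp W hn).choose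

@[reassoc]
theorem fibLow_lowHom (hn : 0 < n) :
    fibLow p hp W hn ≫ lowHom p hp hn W = fib (LF p hp n) (ptF p hp hn) W :=
  (exists_fibLow p hp W hn).choose_spec

theorem LF_isRank : ((LF p hp n).ρW W).IsRank (Fintype.card W * p) := by
  classical
  have h := ρW_isRank (W := W) (LF p hp n)
  rwa [Fintype.card_fin] at h

/-- cells of `ELow` relative to the fibre -/
theorem relCell_fibLow (hn : 0 < n) :
    RelCell {a | 2 * (Fintype.card W * p) + 1 ≤ a ∧ a ≤ 2 * (Fintype.card W * p) + 2 * (n - 1)}
      (fibLow p hp W hn) := by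
  classical
  have h1 := thomChain _ (LF_isRank p hp W) (lensChain' (p := p) hp hn (lastF hn))
  rw [Mset_zero p hp hn] at h1
  refine (relCell_over_lift _ (isClosed_Mset (p := p) (lastF hn)) _
    (injective_fib (LF p hp n) (ptF p hp hn)) (range_fib (LF p hp n) (ptF p hp hn)) _
    (fibLow_lowHom p hp W hn) h1).mono ?_
  rintro _ ⟨a, ⟨ha1, ha2⟩, rfl⟩
  dsimp only at ha2 ⊢
  constructor
  · omega
  · have : ((lastF hn : Fin n) : ℕ) = n - 1 := rfl
    omega

theorem Lset_lastF (hn : 0 < n) : Lset p n ((lastF hn : Fin n) + 1) = univ := by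
  have : ((lastF hn : Fin n) : ℕ) + 1 = n := by
    have : ((lastF hn : Fin n) : ℕ) = n - 1 := rfl
    omega
  rw [this, Lset_last]

theorem cellStep_top (hn : 0 < n) : CellStep (2 * (n - 1) + 1 + 2 * (Fintype.card W * p))
    (range (app (lowHom p hp hn W))) univ := by
  classical
  have h1 := thomStep _ (LF_isRank p hp W) (cellStep_odd (p := p) hp (lastF hn))
  rw [Lset_lastF, overSet_univ] at h1
  rw [lowHom, range_overHom]
  exact h1

/-- the inclusion of `ELow` is a cofibration -/
theorem cofib_lowHom (hn : 0 < n) : Cofib (lowHom p hp hn W) :=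
  cofib_of_cellStep (injective_overHom _ _) (cellStep_top p hp W hn)

/-- the top cell -/
theorem relCell_lowHom (hn : 0 < n) :
    RelCell {2 * (n - 1) + 1 + 2 * (Fintype.card W * p)} (lowHom p hp hn W) :=
  RelCell.step _ _ (mem_singleton _) (cofib_lowHom p hp W hn)
    (cof_of_cellStep (cellStep_top p hp W hn))

theorem fc_eTot : FC ((LF p hp n).ρW W).tot := fc_tot _

/-- currying -/
def curryHomeo (J W : Type) : (J × W → ℂ) ≃ₜ (J → W → ℂ) where
  toFun f j w := f (j, w)
  invFun g x := g x.1 x.2
  left_inv _ := rfl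
  right_inv _ := rfl
  continuous_toFun := by fun_prop
  continuous_invFun := by fun_prop

theorem fc_fib (J : Type) [Fintype J] : FC (Fib J W) :=
  (fc_cvec (J × W)).of_homeo (Y := Fib J W) (curryHomeo J W)

theorem fc_eLow (hn : 0 < n) : FC (ELow p hp hn W) :=
  (relCell_fibLow p hp W hn).fc (fc_fib W (Fin p))

end lens

end Vale.Agent.P257.H104
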