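import Vale.Agent.P257.H104.Over
import Vale.Agent.P257.H104.DSum
import Vale.Agent.P251.G.Isom

/-!
# P257: the top cell of `E(W ⊗ ρ)` and the covering

* `cellLC`: the open cell `{x ∈ S(ℂⁿ) | 0 < arg x_last < 2 π / p} × ℂ^{J × W}`;
* `collTop : E(W ⊗ ρ) ⟶ cellLC`, `coll₀ : S(ℂⁿ) × ℂ^{J × W} ⟶ cellLC` the collapses;
* `map_cov_collTop`: in the stable category `cov ≫ collTop = p • coll₀`.
-/

open Set Filter Topology OnePoint CategoryTheory MonoidalCategory Matrix Limits Pretriangulated
open Vale.Agent.P251 Vale.Agent.P251.G Vale.Agent.P251.G.Cell Vale.Agent.P251.G.LC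
  Vale.Agent.P251.I Vale.Agent.P251.T

noncomputable section

set_option linter.unusedSectionVars false

universe v u

namespace Vale.Agent.P257.H104

section sec

variable {p : ℕ}

/-- the open sector -/
def Sec (p : ℕ) : Set ℂ := {c | 0 < Complex.arg c ∧ Complex.arg c < 2 * Real.pi / p}

theorem isOpen_Sec (hp : 2 ≤ p) : IsOpen (Sec p) := by
  rw [isOpen_iff_mem_nhds]
  rintro c ⟨h1, h2⟩
  have hpi := Real.pi_pos
  have hpp : (2 : ℝ) ≤ p := by exact_mod_cast hp
  have h3 : 2 * Real.pi / p ≤ Real.pi := by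
    rw [div_le_iff₀ (by linarith)]
    nlinarith
  have hc : c ∈ Complex.slitPlane := by
    rw [Complex.mem_slitPlane_iff_arg]
    refine ⟨fun h => ?_, fun h => ?_⟩
    · rw [h] at h2; linarith
    · rw [h, Complex.arg_zero] at h1; exact lt_irrefl _ h1
  exact (Complex.continuousAt_arg hc).preimage_mem_nhds (Ioo_mem_nhds h1 h2)

theorem mul_ec_mem_Sec (hp : 2 ≤ p) {r t : ℝ} (hr : 0 < r) (h0 : 0 < t) (h1 : t < 1) :
    (r : ℂ) * ec p t ∈ Sec p := by
  have hpi := Real.pi_pos
  have hpp : (2 : ℝ) ≤ p := by exact_mod_cast hp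
  have hp0 : (0 : ℝ) < p := by linarith
  have h2 : 0 < 2 * Real.pi * t / p := by positivity
  have h3 : 2 * Real.pi * t / p < 2 * Real.pi / p := by
    rw [div_lt_div_iff_of_pos_right hp0]
    nlinarith
  have h4 : 2 * Real.pi / p ≤ Real.pi := by
    rw [div_le_iff₀ hp0]
    nlinarith
  have h5 : Complex.arg ((r : ℂ) * ec p t) = 2 * Real.pi * t / p := by
    rw [ec, Complex.exp_mul_I]
    exact Complex.arg_mul_cos_add_sin_mul_I hr ⟨by linarith, by linarith⟩
  exact ⟨by rw [h5]; exact h2, by rw [h5]; exact h3⟩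

theorem exists_of_mem_Sec (hp : 2 ≤ p) {c : ℂ} (hc : c ∈ Sec p) :
    ∃ r t : ℝ, 0 < r ∧ 0 < t ∧ t < 1 ∧ c = (r : ℂ) * ec p t := by
  have hpi := Real.pi_pos
  have hpp : (2 : ℝ) ≤ p := by exact_mod_cast hp
  have hp0 : (0 : ℝ) < p := by linarith
  have hc0 : c ≠ 0 := by
    rintro rfl
    have := hc.1
    rw [Complex.arg_zero] at this
    exact lt_irrefl _ this
  refine ⟨‖c‖, Complex.arg c * p / (2 * Real.pi), norm_pos_iff.2 hc0, ?_, ?_, ?_⟩
  · have := hc.1
    positivity
  · rw [div_lt_one (by positivity)]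
    have := hc.2
    rw [lt_div_iff₀ hp0] at this
    exact this
  · have h1 : 2 * Real.pi * (Complex.arg c * p / (2 * Real.pi)) / p = Complex.arg c := by
      field_simp
    rw [ec, h1, Complex.norm_mul_exp_arg_mul_I]

theorem zeta_eq_one_of_Sec (hp : 2 ≤ p) {c a : ℂ} (hc : c ∈ Sec p) (ha : a ^ p = 1)
    (hac : a * c ∈ Sec p) : a = 1 := by
  have hp0 : p ≠ 0 := by omega
  obtain ⟨r, t, hr, ht0, ht1, rfl⟩ := exists_of_mem_Sec hp hc
  obtain ⟨r', t', hr', ht0', ht1', h⟩ := exists_of_mem_Sec hp hac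
  have ha1 : ‖a‖ = 1 := by
    have := normSq_of_pow_eq hp0 (c := 1) (by simp) ha
    rw [Complex.normSq_eq_norm_sq] at this
    nlinarith [norm_nonneg a]
  have hrr : r = r' := by
    have := congrArg norm h
    rw [norm_mul, norm_mul, norm_mul, ha1, one_mul, norm_ec, norm_ec, mul_one, mul_one,
      Complex.norm_real, Complex.norm_real, Real.norm_eq_abs, Real.norm_eq_abs,
      abs_of_pos hr, abs_of_pos hr'] at this
    exact this
  subst hrr
  have hr0 : (r : ℂ) ≠ 0 := Complex.ofReal_ne_zero.2 hr.ne'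
  have h2 : a * ec p t = ec p t' := by
    apply mul_left_cancel₀ hr0
    rw [← h]; ring
  have h3 : t = t' := by
    apply exp_inj ht0 ht1 ht0' ht1'
    rw [← ec_pow hp0, ← ec_pow hp0, ← h2, mul_pow, ha, one_mul]
  subst h3
  have h7 : ec p t ≠ 0 := by
    intro h
    have := norm_ec p t
    rw [h, norm_zero] at this
    exact zero_ne_one this
  have h8 : a * ec p t = 1 * ec p t := by rw [one_mul, h2]
  exact mul_right_cancel₀ h7 h8

theorem pow_notMem_NN_of_Sec (hp : 2 ≤ p) {c : ℂ} (hc : c ∈ Sec p) : c ^ p ∉ NN := by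
  have hp0 : p ≠ 0 := by omega
  obtain ⟨r, t, hr, ht0, ht1, rfl⟩ := exists_of_mem_Sec hp hc
  rw [mul_pow, ec_pow hp0, ← Complex.ofReal_pow]
  exact exp_mem_NN ht0 ht1 (pow_pos hr p)

theorem exists_zeta_mul_mem_Sec (hp : 2 ≤ p) {c : ℂ} (hc : c ^ p ∉ NN) :
    ∃ a : ℂ, a ^ p = 1 ∧ a * c ∈ Sec p := by
  have hp0 : p ≠ 0 := by omega
  have hc0 : c ≠ 0 := by
    rintro rfl
    rw [zero_pow hp0] at hc
    exact hc zero_mem_NN
  obtain ⟨t, ht0, ht1, ht⟩ := exists_arg hc
  refine ⟨((‖c‖ : ℂ) * ec p t) / c, ?_, ?_⟩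
  · have h : ((‖c‖ : ℂ) * ec p t) ^ p = c ^ p := by
      rw [mul_pow, ec_pow hp0]
      conv_rhs => rw [ht, norm_pow]
      push_cast
      rfl
    rw [div_pow, h, div_self (pow_ne_zero p hc0)]
  · rw [div_mul_cancel₀ _ hc0]
    exact mul_ec_mem_Sec hp (norm_pos_iff.2 hc0) ht0 ht1

end sec

section rot

variable (p : ℕ) {n : ℕ}

theorem zeta_pow_pow (hp : p ≠ 0) (m : ℕ) : (zetaC p ^ m) ^ p = 1 := by
  rw [← pow_mul, mul_comm, pow_mul, zetaC_pow_self, one_pow]

theorem normSq_zeta_pow (hp : p ≠ 0) (m : ℕ) : Complex.normSq (zetaC p ^ m) = 1 :=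
  normSq_of_pow_eq hp (by simp) (zeta_pow_pow p hp m)

/-- multiplication by a unit complex number, as an isomorphism of `LC` -/
def smulHomeo (c : ℂ) (hc : Complex.normSq c = 1) : SS (Fin n) ≃ₜ SS (Fin n) where
  toFun := SS.smul c hc
  invFun := SS.smul (star c) (by
    change Complex.normSq ((starRingEnd ℂ) c) = 1
    rw [Complex.normSq_conj, hc])
  left_inv x := by
    apply SS.ext
    rw [SS.smul_v, SS.smul_v, smul_smul]
    have : star c * c = 1 := by
      have h2 := Complex.normSq_eq_conj_mul_self (z := c)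
      rw [hc] at h2
      exact h2.symm.trans (by simp)
    rw [this, one_smul]
  right_inv x := by
    apply SS.ext
    rw [SS.smul_v, SS.smul_v, smul_smul]
    have : c * star c = 1 := by
      have h2 := Complex.normSq_eq_conj_mul_self (z := c)
      rw [hc] at h2
      rw [mul_comm]
      exact h2.symm.trans (by simp)
    rw [this, one_smul]
  continuous_toFun := (SS.continuous_v.const_smul c).subtype_mk _
  continuous_invFun := (SS.continuous_v.const_smul (star c)).subtype_mk _

/-- multiplication by a unit complex number -/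
def smulHom (c : ℂ) (hc : Complex.normSq c = 1) : LC.of (SS (Fin n)) ⟶ LC.of (SS (Fin n)) :=
  (ofHomeo (X := LC.of (SS (Fin n))) (Y := LC.of (SS (Fin n))) (smulHomeo c hc)).hom

theorem smulHom_one : smulHom (n := n) 1 (by simp) = 𝟙 _ := by
  apply hom_ext
  intro x
  change OnePoint.some (SS.smul 1 (by simp) x) = OnePoint.some x
  congr 1
  apply SS.ext
  rw [SS.smul_v, one_smul]

theorem smulHom_homotopic (c : ℂ) (hc : Complex.normSq c = 1) :
    Homotopic (smulHom (n := n) c hc) (𝟙 _) := by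
  have hcn : ‖c‖ = 1 := by
    rw [Complex.normSq_eq_norm_sq] at hc
    nlinarith [norm_nonneg c]
  have h1 : ∀ t : unitInterval, Complex.normSq (Complex.exp ((t : ℝ) * Complex.arg c *
      Complex.I)) = 1 := by
    intro t
    have := Complex.norm_exp_ofReal_mul_I ((t : ℝ) * Complex.arg c)
    rw [Complex.normSq_eq_norm_sq]
    push_cast at this
    rw [this, one_pow]
  refine Homotopic.symm ⟨ofCompact (X := LC.of (SS (Fin n) × unitInterval))
    (fun q => SS.smul (Complex.exp ((q.2 : ℝ) * Complex.arg c * Complex.I)) (h1 q.2) q.1) ?_,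
    ?_, ?_⟩
  · refine Continuous.subtype_mk ?_ _
    have h2 : Continuous fun q : SS (Fin n) × unitInterval =>
        Complex.exp (((q.2 : ℝ) : ℂ) * Complex.arg c * Complex.I) := by fun_prop
    exact h2.smul (SS.continuous_v.comp continuous_fst)
  · apply hom_ext
    intro x
    rw [app_comp, app_incl]
    change OnePoint.some (SS.smul _ _ x) = OnePoint.some x
    congr 1
    apply SS.ext
    rw [SS.smul_v]
    simp
  · apply hom_ext
    intro x
    rw [app_comp, app_incl]
    change OnePoint.some (SS.smul _ _ x) = OnePoint.some (SS.smul c hc x)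
    congr 1
    apply SS.ext
    rw [SS.smul_v, SS.smul_v]
    congr 1
    have := Complex.norm_mul_exp_arg_mul_I c
    rw [hcn] at this
    simpa using this

variable {J : Type} [Fintype J] {W : Type} [Fintype W] [DecidableEq J] [DecidableEq W]

/-- permutation of the coordinates -/
def permHomeo (σ : Equiv.Perm J) : (J → W → ℂ) ≃ₜ (J → W → ℂ) where
  toFun w j := w (σ j)
  invFun w j := w (σ.symm j)
  left_inv w := by funext j; simp
  right_inv w := by funext j; simp
  continuous_toFun := by fun_prop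
  continuous_invFun := by fun_prop

/-- permutation of the coordinates -/
def permHom (σ : Equiv.Perm J) : Fib J W ⟶ Fib J W :=
  (ofHomeo (X := Fib J W) (Y := Fib J W) (permHomeo σ)).hom

theorem permHom_homotopic (σ : Equiv.Perm J) : Homotopic (permHom (W := W) σ) (𝟙 _) := by
  let e : J × W ≃ J × W := σ.symm.prodCongr (Equiv.refl W)
  let c : Th.CC (J × W) ≅ Fib J W := ofHomeo (X := Th.CC (J × W)) (Y := Fib J W)
    (curryHomeo J W)
  have h1 : permHom (W := W) σ = c.inv ≫ Th.cmap (injMat e) (injMat_isom e.injective) ≫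
      c.hom := by
    apply hom_ext
    intro w
    rw [app_comp, app_comp]
    change OnePoint.some (fun j => w (σ j)) = app c.hom (app (Th.cmap _ _)
      (OnePoint.some ((curryHomeo J W).symm w)))
    rw [Th.app_cmap_coe, injMat_equiv_mulVec]
    rfl
  rw [h1]
  have h2 : 𝟙 (Fib J W) = c.inv ≫ 𝟙 _ ≫ c.hom := by simp
  rw [h2]
  exact Homotopic.comp_left _ ((Th.cmap_homotopic_id _ _).comp_right _)

end rot

end Vale.Agent.P257.H104
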