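import Vale.Agent.P257.H104.Sector

/-!
# P257: the covering `S(ℂⁿ) × ℂ^{J × W} ⟶ E(W ⊗ ρ)` on the top cell
-/

open Set Filter Topology OnePoint CategoryTheory MonoidalCategory Matrix Limits Pretriangulated
open Vale.Agent.P251 Vale.Agent.P251.G Vale.Agent.P251.G.Cell Vale.Agent.P251.G.LC
  Vale.Agent.P251.I Vale.Agent.P251.T

noncomputable section

set_option linter.unusedSectionVars false

universe v u

namespace Vale.Agent.P257.H104

variable {p : ℕ} (hp : p ≠ 0) {n : ℕ} {W : Type} [Fintype W] [DecidableEq W]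

/-- the cyclic permutation -/
def addPerm (m : Fin p) : Equiv.Perm (Fin p) :=
  haveI : NeZero p := ⟨hp⟩
  Equiv.addRight m

theorem addPerm_val (m j : Fin p) : ((addPerm hp m j : Fin p) : ℕ) = ((j : ℕ) + m) % p := by
  have : NeZero p := ⟨hp⟩
  unfold addPerm
  rw [Equiv.coe_addRight, Fin.val_add]

theorem frameΦ_zeta (m : Fin p) (x : Fin n → ℂ) :
    frameΦ p (zetaC p ^ (m : ℕ) • x) = (frameΦ p x).submatrix id (addPerm hp m) := by
  ext a j
  rw [submatrix_apply, id]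
  rcases a with a | b
  · rfl
  · rw [frameΦ_inr, frameΦ_inr, tp_smul, addPerm_val]
    have h1 : zetaC p ^ ((((j : ℕ) + m) % p) * (b.1 + 1)) =
        zetaC p ^ (((j : ℕ) + m) * (b.1 + 1)) := by
      rw [pow_mul, pow_mul]
      congr 1
      conv_rhs => rw [← Nat.mod_add_div ((j : ℕ) + m) p]
      rw [pow_add, pow_mul, zetaC_pow_self, one_pow, mul_one]
    rw [h1, Pi.smul_apply, smul_eq_mul, add_mul, pow_add (zetaC p) ((j : ℕ) * _),
      pow_mul (zetaC p) (m : ℕ)]
    ring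

/-- the rotation of `S(ℂⁿ) × ℂ^{J × W}` -/
def rotFun (m : Fin p) (a : (LF p hp n).S × (Fin p → W → ℂ)) :
    (LF p hp n).S × (Fin p → W → ℂ) :=
  (SS.smul (zetaC p ^ (m : ℕ)) (normSq_zeta_pow p hp m) a.1, fun j => a.2 (addPerm hp m j))

theorem rotFun_fst (m : Fin p) (a : (LF p hp n).S × (Fin p → W → ℂ)) :
    SS.v (rotFun hp m a).1 = zetaC p ^ (m : ℕ) • SS.v a.1 := rfl

theorem q_rotFun (m : Fin p) (a : (LF p hp n).S × (Fin p → W → ℂ)) :
    (LF p hp n).q (rotFun hp m a) = (LF p hp n).q a := by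
  obtain ⟨x, w⟩ := a
  refine q_perm (LF p hp n) (e := x) (e' := SS.smul (zetaC p ^ (m : ℕ))
    (normSq_zeta_pow p hp m) x) ?_ (σ := addPerm hp m) (frameΦ_zeta hp m (SS.v x)) w
  exact (SS.lens_eq_iff hp).2 ⟨zetaC p ^ (m : ℕ), zeta_pow_pow p hp m, rfl⟩

theorem exists_rot_of_q_eq {a a' : (LF p hp n).S × (Fin p → W → ℂ)}
    (h : (LF p hp n).q a = (LF p hp n).q a') : ∃ m : Fin p, a' = rotFun hp m a := by
  obtain ⟨x, w⟩ := a
  obtain ⟨x', w'⟩ := a'
  have h1 : SS.lens p x = SS.lens p x' := congrArg Bun.base h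
  obtain ⟨c, hc, hxc⟩ := (SS.lens_eq_iff hp).1 h1
  have : NeZero p := ⟨hp⟩
  obtain ⟨m, hm, rfl⟩ := (isPrimitiveRoot_zetaC hp).eq_pow_of_pow_eq_one hc
  refine ⟨⟨m, hm⟩, Prod.ext (SS.ext hxc) ?_⟩
  have h2 : powVec (frameΦ p (SS.v x)) w = powVec (frameΦ p (SS.v x')) w' := congrArg Bun.vec h
  have h3 := congrArg (coordVec (frameΦ p (SS.v x'))) h2
  rw [coordVec_powVec (frameΦ_isom hp (SS.nsq_v x'))] at h3
  rw [hxc] at h3
  have h4 := frameΦ_zeta hp (⟨m, hm⟩ : Fin p) (SS.v x)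
  rw [show ((⟨m, hm⟩ : Fin p) : ℕ) = m from rfl] at h4
  rw [h4] at h3
  funext j
  change w' j = w (addPerm hp ⟨m, hm⟩ j)
  rw [← h3, coordVec_perm, coordVec_powVec (frameΦ_isom hp (SS.nsq_v x))]

/-- the rotation as a morphism -/
def rotHom (n : ℕ) (W : Type) [Fintype W] [DecidableEq W] (m : Fin p) :
    LC.of (LF p hp n).S ⊗ Fib (Fin p) W ⟶ LC.of (LF p hp n).S ⊗ Fib (Fin p) W :=
  smulHom (n := n) (zetaC p ^ (m : ℕ)) (normSq_zeta_pow p hp m) ⊗ₘ permHom (addPerm hp m)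

theorem app_rotHom_coe (m : Fin p) (a : (LF p hp n).S × (Fin p → W → ℂ)) :
    app (rotHom hp n W m) (OnePoint.some a) = OnePoint.some (rotFun hp m a) := rfl

theorem continuous_rotFun (m : Fin p) :
    Continuous (rotFun (n := n) (W := W) hp m) := by
  have h := continuous_app (rotHom hp n W m)
  have h2 : (fun a => app (rotHom hp n W m) (OnePoint.some a)) =
      fun a => OnePoint.some (rotFun hp m a) := rfl
  have h3 : Continuous fun a : (LF p hp n).S × (Fin p → W → ℂ) =>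
      OnePoint.some (rotFun hp m a) := h.comp OnePoint.continuous_coe
  exact OnePoint.isOpenEmbedding_coe.isEmbedding.continuous_iff.2 h3

theorem rotHom_homotopic (m : Fin p) : Homotopic (rotHom hp n W m) (𝟙 _) := by
  have h1 : (𝟙 (LC.of (LF p hp n).S ⊗ Fib (Fin p) W)) =
      (𝟙 (LC.of (SS (Fin n))) ⊗ₘ 𝟙 (Fib (Fin p) W)) := (id_tensorHom_id _ _).symm
  rw [h1]
  exact Homotopic.tensor (smulHom_homotopic _ _) (permHom_homotopic _)

/-- the quotient map is open -/
theorem isOpenMap_q : IsOpenMap ((LF p hp n).q (W := W)) := by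
  intro O hO
  have hq : IsQuotientMap ((LF p hp n).q (W := W)) :=
    ((LF p hp n).isProperMap_q).isClosedMap.isQuotientMap (LF p hp n).continuous_q
      (LF p hp n).surjective_q
  rw [← hq.isOpen_preimage]
  have h1 : (LF p hp n).q ⁻¹' ((LF p hp n).q '' O) = ⋃ m : Fin p, rotFun hp m ⁻¹' O := by
    ext a
    simp only [mem_preimage, mem_image, mem_iUnion]
    constructor
    · rintro ⟨o, ho, hoa⟩
      obtain ⟨m, rfl⟩ := exists_rot_of_q_eq hp hoa.symm
      exact ⟨m, ho⟩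
    · rintro ⟨m, hm⟩
      exact ⟨_, hm, q_rotFun hp m a⟩
  rw [h1]
  exact isOpen_iUnion fun m => hO.preimage (continuous_rotFun hp m)

variable {hn : 0 < n}

/-- the sector in the sphere -/
def VS (p : ℕ) {n : ℕ} (hn : 0 < n) : Type := {x : SS (Fin n) // x.v (lastF hn) ∈ Sec p}

instance : TopologicalSpace (VS p hn) := inferInstanceAs (TopologicalSpace (Subtype _))
instance : T2Space (VS p hn) := inferInstanceAs (T2Space (Subtype _))

theorem isOpenEmbedding_VS (hp2 : 2 ≤ p) :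
    IsOpenEmbedding (Subtype.val : VS p hn → SS (Fin n)) :=
  ((isOpen_Sec hp2).preimage ((continuous_apply _).comp SS.continuous_v)).isOpenEmbedding_subtypeVal

theorem locallyCompact_VS (hp2 : 2 ≤ p) : LocallyCompactSpace (VS p hn) :=
  (isOpenEmbedding_VS hp2).locallyCompactSpace

variable (hp2 : 2 ≤ p)

/-- the open cell -/
def cellLC (hp2 : 2 ≤ p) (hn : 0 < n) (W : Type) [Fintype W] : LC :=
  haveI := locallyCompact_VS (hn := hn) hp2
  LC.of (VS p hn × (Fin p → W → ℂ))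

/-- the open cell in the covering space -/
def cellIn (a : VS p hn × (Fin p → W → ℂ)) : (LF p hp n).S × (Fin p → W → ℂ) := (a.1.1, a.2)

include hp2 in
theorem isOpenEmbedding_cellIn : IsOpenEmbedding (cellIn (hn := hn) (W := W) hp) :=
  (isOpenEmbedding_VS hp2).prodMap IsOpenEmbedding.id

/-- the open cell in the total space -/
def cellJ (a : VS p hn × (Fin p → W → ℂ)) : ((LF p hp n).ρW W).E := (LF p hp n).q (cellIn hp a)

include hp2 in
theorem rot_cell {m : Fin p} {a : (LF p hp n).S × (Fin p → W → ℂ)}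
    (h1 : SS.v a.1 (lastF hn) ∈ Sec p) (h2 : SS.v (rotFun hp m a).1 (lastF hn) ∈ Sec p) :
    rotFun hp m a = a ∧ (m : ℕ) = 0 := by
  rw [rotFun_fst, Pi.smul_apply, smul_eq_mul] at h2
  have h3 := zeta_eq_one_of_Sec hp2 h1 (zeta_pow_pow p hp m) h2
  have h4 : (m : ℕ) = 0 := by
    have := (isPrimitiveRoot_zetaC hp).pow_inj m.2 (Nat.pos_of_ne_zero hp)
      (h3.trans (pow_zero _).symm)
    exact this
  refine ⟨Prod.ext (SS.ext ?_) ?_, h4⟩
  · rw [rotFun_fst, h3, one_smul]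
  · funext j
    have h5 : addPerm hp m j = j := by
      apply Fin.ext
      rw [addPerm_val, h4, add_zero, Nat.mod_eq_of_lt j.2]
    change a.2 (addPerm hp m j) = a.2 j
    rw [h5]

include hp2 in
theorem injective_cellJ : Function.Injective (cellJ (hn := hn) (W := W) hp) := by
  intro a b h
  obtain ⟨m, hm⟩ := exists_rot_of_q_eq hp h
  have h1 : SS.v (cellIn hp a).1 (lastF hn) ∈ Sec p := a.1.2
  have h2 : SS.v (rotFun hp m (cellIn hp a)).1 (lastF hn) ∈ Sec p := by
    rw [← hm]; exact b.1.2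
  have h3 := (rot_cell hp hp2 h1 h2).1
  rw [h3] at hm
  exact (isOpenEmbedding_cellIn hp hp2).injective hm.symm

include hp2 in
theorem isOpenEmbedding_cellJ : IsOpenEmbedding (cellJ (hn := hn) (W := W) hp) :=
  IsOpenEmbedding.of_continuous_injective_isOpenMap
    ((LF p hp n).continuous_q.comp (isOpenEmbedding_cellIn hp hp2).continuous)
    (injective_cellJ hp hp2)
    ((isOpenMap_q hp).comp (isOpenEmbedding_cellIn hp hp2).isOpenMap)

/-- the collapse of the covering space to the cell -/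
def coll₀ (hn : 0 < n) (W : Type) [Fintype W] [DecidableEq W] :
    LC.of (LF p hp n).S ⊗ Fib (Fin p) W ⟶ cellLC hp2 hn W :=
  ofOpen (X := LC.of ((LF p hp n).S × (Fin p → W → ℂ))) (Y := cellLC hp2 hn W)
    (cellIn hp) (isOpenEmbedding_cellIn hp hp2)

/-- the collapse of the total space to its top cell -/
def collTop (hn : 0 < n) (W : Type) [Fintype W] [DecidableEq W] :
    ((LF p hp n).ρW W).tot ⟶ cellLC hp2 hn W :=
  ofOpen (X := ((LF p hp n).ρW W).tot) (Y := cellLC hp2 hn W)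
    (cellJ hp) (isOpenEmbedding_cellJ hp hp2)

include hp hp2 in
theorem notMem_Mset_iff {x : SS (Fin n)} :
    x.lens p ∉ Mset p n (lastF hn) ↔ ∃ m : Fin p, zetaC p ^ (m : ℕ) * x.v (lastF hn) ∈ Sec p := by
  rw [mem_Mset_lens hp]
  constructor
  · intro h
    have h1 : x.v (lastF hn) ^ p ∉ NN := by
      intro h2
      refine h ⟨fun i hi => ?_, h2⟩
      have h3 : ((lastF hn : Fin n) : ℕ) = n - 1 := rfl
      have h4 := i.2
      have h5 : ((lastF hn : Fin n) : ℕ) < i := hi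
      omega
    obtain ⟨c, hc, hcs⟩ := exists_zeta_mul_mem_Sec hp2 h1
    have : NeZero p := ⟨hp⟩
    obtain ⟨m, hm, rfl⟩ := (isPrimitiveRoot_zetaC hp).eq_pow_of_pow_eq_one hc
    exact ⟨⟨m, hm⟩, hcs⟩
  · rintro ⟨m, hm⟩ ⟨-, h⟩
    have h1 := pow_notMem_NN_of_Sec hp2 hm
    rw [mul_pow, zeta_pow_pow p hp, one_mul] at h1
    exact h1 h

include hp2 in
/-- the image of the open cell -/
theorem mem_range_cellJ (e : ((LF p hp n).ρW W).E) :
    e ∈ range (cellJ (hn := hn) (W := W) hp) ↔ Bun.base e ∉ Mset p n (lastF hn) := by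
  constructor
  · rintro ⟨a, rfl⟩
    have h : a.1.1.lens p ∉ Mset p n (lastF hn) := by
      rw [notMem_Mset_iff hp hp2]
      refine ⟨⟨0, Nat.pos_of_ne_zero hp⟩, ?_⟩
      rw [pow_zero, one_mul]
      exact a.1.2
    exact h
  · intro h
    obtain ⟨⟨x, w⟩, rfl⟩ := (LF p hp n).surjective_q e
    obtain ⟨m, hm⟩ := (notMem_Mset_iff (x := x) hp hp2).1 h
    exact ⟨(⟨(rotFun hp m (x, w)).1, hm⟩, (rotFun hp m (x, w)).2), q_rotFun hp m (x, w)⟩

include hp2 in
theorem mem_range_cellJ' (e : ((LF p hp n).ρW W).tot) :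
    e ∈ range (cellJ (hn := hn) (W := W) hp) ↔
      (e : OnePoint _) ∉ range (app (lowHom p hp hn W)) := by
  rw [mem_range_cellJ hp hp2, range_overHom]
  rw [not_iff_not]
  constructor
  · intro h
    exact Or.inr ⟨e, h, rfl⟩
  · rintro (h | ⟨e', h, he⟩)
    · exact absurd h (OnePoint.coe_ne_infty _)
    · rw [← OnePoint.coe_injective he]
      exact h

theorem app_coll₀_of_mem (a : (LF p hp n).S × (Fin p → W → ℂ))
    (hm : SS.v a.1 (lastF hn) ∈ Sec p) :
    app (coll₀ hp hp2 hn W) (OnePoint.some a) =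
      OnePoint.some (X := cellLC hp2 hn W) (⟨a.1, hm⟩, a.2) :=
  app_ofOpen_coe (X := LC.of ((LF p hp n).S × (Fin p → W → ℂ))) (Y := cellLC hp2 hn W)
    (cellIn hp) (isOpenEmbedding_cellIn hp hp2) (⟨a.1, hm⟩, a.2)

theorem app_coll₀_of_notMem (a : (LF p hp n).S × (Fin p → W → ℂ))
    (hm : SS.v a.1 (lastF hn) ∉ Sec p) :
    app (coll₀ hp hp2 hn W) (OnePoint.some a) = ∞ := by
  refine app_ofOpen_of_notMem (X := LC.of ((LF p hp n).S × (Fin p → W → ℂ)))
    (Y := cellLC hp2 hn W) (cellIn hp) (isOpenEmbedding_cellIn hp hp2) ?_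
  rintro ⟨b, rfl⟩
  exact hm b.1.2

theorem app_cov_collTop (a : (LF p hp n).S × (Fin p → W → ℂ)) (m : Fin p)
    (hm : SS.v (rotFun hp m a).1 (lastF hn) ∈ Sec p) :
    app (cov (LF p hp n) W ≫ collTop hp hp2 hn W) (OnePoint.some a) =
      OnePoint.some (X := cellLC hp2 hn W) (⟨(rotFun hp m a).1, hm⟩, (rotFun hp m a).2) := by
  rw [app_comp, app_cov_coe, ← q_rotFun hp m a]
  exact app_ofOpen_coe (X := ((LF p hp n).ρW W).tot) (Y := cellLC hp2 hn W)
    (cellJ hp) (isOpenEmbedding_cellJ hp hp2) (⟨(rotFun hp m a).1, hm⟩, (rotFun hp m a).2)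

theorem app_cov_collTop_infty (a : (LF p hp n).S × (Fin p → W → ℂ))
    (hm : ∀ m, SS.v (rotFun hp m a).1 (lastF hn) ∉ Sec p) :
    app (cov (LF p hp n) W ≫ collTop hp hp2 hn W) (OnePoint.some a) = ∞ := by
  rw [app_comp, app_cov_coe]
  refine app_ofOpen_of_notMem (X := ((LF p hp n).ρW W).tot) (Y := cellLC hp2 hn W)
    (cellJ hp) (isOpenEmbedding_cellJ hp hp2) ?_
  rintro ⟨b, hb⟩
  obtain ⟨m, hm'⟩ := exists_rot_of_q_eq hp hb.symm
  apply hm m
  rw [← hm']
  exact b.1.2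

include hp2 in
theorem rot_unique {a : (LF p hp n).S × (Fin p → W → ℂ)} {m m' : Fin p}
    (h : SS.v (rotFun hp m a).1 (lastF hn) ∈ Sec p)
    (h' : SS.v (rotFun hp m' a).1 (lastF hn) ∈ Sec p) : m = m' := by
  obtain ⟨k, hk⟩ := exists_rot_of_q_eq hp ((q_rotFun hp m a).trans (q_rotFun hp m' a).symm)
  have h1 := (rot_cell hp hp2 h (m := k) (by rw [← hk]; exact h')).1
  rw [h1] at hk
  have h2 : SS.v (rotFun hp m' a).1 (lastF hn) = SS.v (rotFun hp m a).1 (lastF hn) := by rw [hk]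
  rw [rotFun_fst, rotFun_fst, Pi.smul_apply, Pi.smul_apply, smul_eq_mul, smul_eq_mul] at h2
  have h3 : SS.v a.1 (lastF hn) ≠ 0 := by
    intro h0
    rw [rotFun_fst, Pi.smul_apply, h0, smul_zero] at h
    have := h.1
    rw [Complex.arg_zero] at this
    exact lt_irrefl _ this
  have h4 := mul_right_cancel₀ h3 h2
  exact Fin.ext ((isPrimitiveRoot_zetaC hp).pow_inj m.2 m'.2 h4.symm)

/-- the strict cofibre of `lowHom` is the cell -/
def cofLow (hn : 0 < n) (W : Type) [Fintype W] [DecidableEq W] :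
    cellLC hp2 hn W ≅ cof (lowHom p hp hn W) :=
  cofOfOpen (A := ELow p hp hn W) (T := ((LF p hp n).ρW W).tot) (U := cellLC hp2 hn W)
    (lowHom p hp hn W) (cellJ hp)
    (isOpenEmbedding_cellJ hp hp2) (mem_range_cellJ' hp hp2)

theorem collTop_cofLow (hn : 0 < n) (W : Type) [Fintype W] [DecidableEq W] :
    collTop hp hp2 hn W ≫ (cofLow hp hp2 hn W).hom = cofMap (lowHom p hp hn W) :=
  ofOpen_cofOfOpen (A := ELow p hp hn W) (T := ((LF p hp n).ρW W).tot) (U := cellLC hp2 hn W)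
    (lowHom p hp hn W) (cellJ hp)
    (isOpenEmbedding_cellJ hp hp2) (mem_range_cellJ' hp hp2)

include hp in
theorem fc_cell (hn : 0 < n) (W : Type) [Fintype W] [DecidableEq W] : FC (cellLC hp2 hn W) :=
  (FC.cof (cofib_lowHom p hp W hn) (fc_eLow p hp W hn) (fc_eTot p hp W)).of_iso
    (cofLow hp hp2 hn W).symm

theorem fc_SSFib (n : ℕ) (W : Type) [Fintype W] [DecidableEq W] :
    FC (LC.of (LF p hp n).S ⊗ Fib (Fin p) W) :=
  FC.tensor (fc_of_hasChain (SS (Fin n))) (fc_fib W (Fin p))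

section T

variable {T : Type u} [Category.{v} T] [Preadditive T] [HasZeroObject T]
    [HasShift T ℤ] [∀ n : ℤ, (shiftFunctor T n).Additive] [Pretriangulated T]
    [MonoidalCategory T] [SymmetricCategory T] [TensorTriangulated T] (F : SpaceFunctor T)

/-- the total space in `FCat` -/
abbrev eF (n : ℕ) (W : Type) [Fintype W] [DecidableEq W] : FCat :=
  ⟨((LF p hp n).ρW W).tot, fc_eTot p hp W⟩

/-- the covering in `FCat` -/
abbrev covF (n : ℕ) (W : Type) [Fintype W] [DecidableEq W] : FCat :=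
  ⟨LC.of (LF p hp n).S ⊗ Fib (Fin p) W, fc_SSFib hp n W⟩

/-- the cell in `FCat` -/
abbrev cellF (hn : 0 < n) (W : Type) [Fintype W] [DecidableEq W] : FCat :=
  ⟨cellLC hp2 hn W, fc_cell hp hp2 hn W⟩

/-- **The covering has degree `p` on the top cell.** -/
theorem map_cov_collTop (hn : 0 < n) (W : Type) [Fintype W] [DecidableEq W] :
    F.S.map (FCat.hom (cov (LF p hp n) W ≫ collTop hp hp2 hn W) :
      covF hp n W ⟶ cellF hp hp2 hn W) =
      p • F.S.map (FCat.hom (coll₀ hp hp2 hn W) : covF hp n W ⟶ cellF hp hp2 hn W) := by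
  let g : Fin p → (covF hp n W ⟶ cellF hp hp2 hn W) := fun m =>
    FCat.hom (rotHom hp n W m ≫ coll₀ hp hp2 hn W)
  have hg : ∀ m : Fin p, F.S.map (g m) = F.S.map (FCat.hom (coll₀ hp hp2 hn W) :
      covF hp n W ⟶ cellF hp hp2 hn W) := by
    intro m
    apply F.map_eq
    have h1 := (rotHom_homotopic (n := n) (W := W) hp m).comp_right (coll₀ hp hp2 hn W)
    rwa [Category.id_comp] at h1
  have hgm : ∀ (m : Fin p) (a : (LF p hp n).S × (Fin p → W → ℂ)),
      app (g m).hom (OnePoint.some a) =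
        app (coll₀ hp hp2 hn W) (OnePoint.some (rotFun hp m a)) := by
    intro m a
    change app (rotHom hp n W m ≫ coll₀ hp hp2 hn W) (OnePoint.some a) = _
    rw [app_comp, app_rotHom_coe]
  have hne : ∀ (m : Fin p) (a : (LF p hp n).S × (Fin p → W → ℂ)),
      app (g m).hom (OnePoint.some a) ≠ ∞ → SS.v (rotFun hp m a).1 (lastF hn) ∈ Sec p := by
    intro m a h
    by_contra hcon
    rw [hgm, app_coll₀_of_notMem hp hp2 _ hcon] at h
    exact h rfl
  rw [map_eq_sum F Finset.univ g ?_ _ ?_]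
  · rw [Finset.sum_congr rfl fun m _ => hg m, Finset.sum_const, Finset.card_univ,
      Fintype.card_fin]
  · intro a m _ m' _ h h'
    induction a using OnePoint.rec with
    | infty => exact absurd (app_infty _) h
    | coe a => exact rot_unique hp hp2 (hne m a h) (hne m' a h')
  · intro a
    induction a using OnePoint.rec with
    | infty => exact Or.inr ⟨app_infty _, fun m _ => app_infty _⟩
    | coe a =>
      by_cases h : ∃ m, SS.v (rotFun hp m a).1 (lastF hn) ∈ Sec p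
      · obtain ⟨m, hm⟩ := h
        left
        refine ⟨m, Finset.mem_univ _, ?_, ?_⟩
        · rw [hgm, app_coll₀_of_mem hp hp2 _ hm]
          exact app_cov_collTop hp hp2 a m hm
        · rw [hgm, app_coll₀_of_mem hp hp2 _ hm]
          exact OnePoint.coe_ne_infty _
      · push Not at h
        right
        refine ⟨app_cov_collTop_infty hp hp2 a h, fun m _ => ?_⟩
        rw [hgm, app_coll₀_of_notMem hp hp2 _ (h m)]

end T

end Vale.Agent.P257.H104
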